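import Vale.Agent.P060.Sparse

namespace Vale.Agent.Results.P060.DenseHadwiger

open Finset Vale.Agent.P060

/-- `G` has a `K_m` minor: `m` pairwise disjoint sets inducing connected (so nonempty) subgraphs,
any two of them joined by an edge. -/
def HasCliqueMinor {V : Type} (G : SimpleGraph V) (m : ℕ) : Prop :=
  ∃ B : Fin m → Set V, (∀ i, (G.induce (B i)).Connected) ∧
    (∀ i j, i ≠ j → Disjoint (B i) (B j)) ∧
    (∀ i j, i ≠ j → ∃ x ∈ B i, ∃ y ∈ B j, G.Adj x y)

lemma minor_mono {V : Type} {G : SimpleGraph V} {m k : ℕ} (h : HasCliqueMinor G k) (hm : m ≤ k) :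
    HasCliqueMinor G m := by
  obtain ⟨B, h1, h2, h3⟩ := h
  exact ⟨fun i => B (Fin.castLE hm i), fun i => h1 _,
    fun i j hij => h2 _ _ fun e => hij (Fin.castLE_injective hm e),
    fun i j hij => h3 _ _ fun e => hij (Fin.castLE_injective hm e)⟩

/-- Branch sets with a central vertex, given as a family. -/
lemma minor_of_family {V ι : Type} [Fintype ι] {G : SimpleGraph V} (B : ι → Finset V)
    (hconn : ∀ i, ∃ a ∈ B i, ∀ b ∈ B i, b ≠ a → G.Adj a b)
    (hdis : ∀ i j, i ≠ j → Disjoint (B i) (B j))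
    (hjoin : ∀ i j, i ≠ j → ∃ x ∈ B i, ∃ y ∈ B j, G.Adj x y) :
    HasCliqueMinor G (Fintype.card ι) := by
  set e := (Fintype.equivFin ι).symm with he
  refine ⟨fun i => ↑(B (e i)), fun i => ?_, fun i j hij => ?_,
    fun i j hij => hjoin _ _ fun h => hij (e.injective h)⟩
  · obtain ⟨a, ha, hab⟩ := hconn (e i)
    rw [SimpleGraph.connected_iff_exists_forall_reachable]
    refine ⟨⟨a, ha⟩, fun ⟨b, hb⟩ => ?_⟩
    by_cases h : b = a
    · subst h; exact SimpleGraph.Reachable.refl _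
    · exact SimpleGraph.Adj.reachable (hab b hb h)
  · exact disjoint_coe.2 (hdis _ _ fun h => hij (e.injective h))

lemma minor_of_clique {V : Type} {G : SimpleGraph V} {s : Finset V} (hs : G.IsClique (s : Set V)) :
    HasCliqueMinor G s.card := by
  have := minor_of_family (G := G) (fun i : s => ({i.1} : Finset V))
    (fun i => ⟨i, mem_singleton_self _, fun b hb h => absurd (mem_singleton.1 hb) h⟩)
    (fun i j h => by simpa using fun e => h (Subtype.ext e))
    (fun i j h => ⟨i, mem_singleton_self _, j, mem_singleton_self _,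
      hs i.2 j.2 fun e => h (Subtype.ext e)⟩)
  simpa using this

variable {V : Type} [Fintype V] [DecidableEq V] (H : SimpleGraph V) [DecidableRel H.Adj]

/-- The case of a large part `W`. -/
lemma minor_of_pairs {d : ℕ} (hd : ∀ v, (H.neighborFinset v).card ≤ d) (hd1 : 1 ≤ d)
    (S U : Finset V) (hU : ∀ u ∈ U, ∀ u' ∈ U, ¬ H.Adj u u')
    (hone : ∀ w ∈ (S ∪ U)ᶜ, ∀ u ∈ U, ∀ u' ∈ U, H.Adj w u → H.Adj w u' → u = u')
    (hW : Even ((S ∪ U)ᶜ).card) (hbnd : (2000 * d) ^ 4 ≤ ((S ∪ U)ᶜ).card ^ 3) :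
    HasCliqueMinor Hᶜ (U.card + ((S ∪ U)ᶜ).card / 2) := by
  set W := (S ∪ U)ᶜ with hWdef
  obtain ⟨p, hinv, hne, hnadj, hnU, hnocf⟩ := exists_pairs H hd hd1 U W hone hW hbnd
  obtain ⟨L, -, hL, hiff⟩ := exists_half p hinv univ (fun x _ => ⟨mem_univ _, hne x⟩)
  have hLc : L.card = W.card / 2 := by
    simp only [card_univ, Fintype.card_coe] at hL
    omega
  set B : U ⊕ L → Finset V := Sum.elim (fun u => {u.1}) (fun x => {(x.1 : V), (p x.1 : V)}) with hB
  have hUW : ∀ u ∈ U, ∀ x : W, u ≠ (x : V) := fun u hu x h =>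
    mem_compl.1 x.2 (mem_union_right _ (h ▸ hu))
  have hpne : ∀ x : W, (x : V) ≠ (p x : V) := fun x h => hne x (Subtype.ext h).symm
  have hkey : ∀ a b : L, a ≠ b → ∀ x ∈ ({(a.1 : V), (p a.1 : V)} : Finset V),
      ∀ y ∈ ({(b.1 : V), (p b.1 : V)} : Finset V), x ≠ y := by
    intro a b hab x hx y hy
    simp only [mem_insert, mem_singleton] at hx hy
    have ha := (hiff a.1 (mem_univ _)).1 a.2
    have hb := (hiff b.1 (mem_univ _)).1 b.2
    rcases hx with rfl | rfl <;> rcases hy with rfl | rfl <;> intro h <;> have h' := Subtype.ext h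
    · exact hab (Subtype.ext h')
    · exact hb (h' ▸ a.2)
    · exact ha (h'.symm ▸ b.2)
    · exact hab (Subtype.ext (by rw [← hinv a.1, h', hinv]))
  have hcompl : ∀ x y : V, x ≠ y → ¬ H.Adj x y → Hᶜ.Adj x y := fun x y h1 h2 =>
    (SimpleGraph.compl_adj _ _ _).2 ⟨h1, h2⟩
  have hUL : ∀ (u : U) (a : L), ∃ x ∈ B (Sum.inl u), ∃ y ∈ B (Sum.inr a), Hᶜ.Adj x y := by
    intro u a
    by_cases h : H.Adj u.1 a.1
    · exact ⟨u.1, by simp [hB], (p a.1 : V), by simp [hB],
        hcompl _ _ (hUW _ u.2 _) fun h' => hnU a.1 u u.2 ⟨h, h'⟩⟩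
    · exact ⟨u.1, by simp [hB], (a.1 : V), by simp [hB], hcompl _ _ (hUW _ u.2 _) h⟩
  have hdis : ∀ i j, i ≠ j → ∀ x ∈ B i, ∀ y ∈ B j, x ≠ y := by
    intro i j hij x hx y hy
    rcases i with u | a <;> rcases j with v | b <;>
      simp only [hB, Sum.elim_inl, Sum.elim_inr, mem_singleton] at hx hy
    · subst hx hy
      exact fun h => hij (by rw [Subtype.ext h])
    · subst hx
      simp only [mem_insert, mem_singleton] at hy
      rcases hy with rfl | rfl <;> exact hUW _ u.2 _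
    · subst hy
      simp only [mem_insert, mem_singleton] at hx
      rcases hx with rfl | rfl <;> exact (hUW _ v.2 _).symm
    · exact hkey a b (fun h => hij (by rw [h])) x hx y hy
  have := minor_of_family (G := Hᶜ) B ?_
    (fun i j hij => disjoint_left.2 fun x hx hx' => hdis i j hij x hx x hx' rfl) ?_
  · simpa [hLc] using this
  · rintro (u | a)
    · exact ⟨u.1, by simp [hB], fun b hb h => absurd (by simpa [hB] using hb) h⟩
    · refine ⟨a.1, by simp [hB], fun b hb h => ?_⟩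
      simp only [hB, Sum.elim_inr, mem_insert, mem_singleton] at hb
      rcases hb with rfl | rfl
      · exact absurd rfl h
      · exact hcompl _ _ (hpne _) (hnadj _)
  · rintro (u | a) (v | b) hij
    · exact ⟨u.1, by simp [hB], v.1, by simp [hB],
        hcompl _ _ (fun h => hij (by rw [Subtype.ext h])) (hU _ u.2 _ v.2)⟩
    · exact hUL u b
    · obtain ⟨x, hx, y, hy, h⟩ := hUL v a
      exact ⟨y, hy, x, hx, h.symm⟩
    · by_contra hno
      push Not at hno
      have hall : ∀ x ∈ B (Sum.inr a), ∀ y ∈ B (Sum.inr b), H.Adj x y := fun x hx y hy => by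
        by_contra h
        exact hno x hx y hy (hcompl _ _ (hdis _ _ hij x hx y hy) h)
      exact hnocf a.1 b.1 ⟨hall _ (by simp [hB]) _ (by simp [hB]),
        hall _ (by simp [hB]) _ (by simp [hB]), hall _ (by simp [hB]) _ (by simp [hB]),
        hall _ (by simp [hB]) _ (by simp [hB])⟩

/-- The case of a large part `S`. -/
lemma minor_of_quads {d L m : ℕ} (hd : ∀ v, (H.neighborFinset v).card ≤ d) (hd4 : d ^ 4 < L ^ 3)
    (S U : Finset V) (hSU : Disjoint S U) (hU : ∀ u ∈ U, ∀ u' ∈ U, ¬ H.Adj u u')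
    (hm : 4 * m + d + L ≤ S.card) :
    HasCliqueMinor Hᶜ (U.card + m) := by
  obtain ⟨F, hF1, hF2, hF3, hF4⟩ := exists_quads H hd S hd4 m hm
  set B : U ⊕ Fin m → Finset V := Sum.elim (fun u => {u.1}) F with hB
  have hdis : ∀ i j, i ≠ j → ∀ x ∈ B i, ∀ y ∈ B j, x ≠ y := by
    intro i j hij x hx y hy
    rcases i with u | a <;> rcases j with v | b <;>
      simp only [hB, Sum.elim_inl, Sum.elim_inr, mem_singleton] at hx hy
    · subst hx hy
      exact fun h => hij (by rw [Subtype.ext h])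
    · subst hx
      exact fun h => disjoint_left.1 hSU ((hF1 b).1 hy) (h ▸ u.2)
    · subst hy
      exact fun h => disjoint_left.1 hSU ((hF1 a).1 hx) (h ▸ v.2)
    · exact fun h => disjoint_left.1 (hF2 a b fun e => hij (by rw [e])) hx (h ▸ hy)
  have hcompl : ∀ x y : V, x ≠ y → ¬ H.Adj x y → Hᶜ.Adj x y := fun x y h1 h2 =>
    (SimpleGraph.compl_adj _ _ _).2 ⟨h1, h2⟩
  have hone : ∀ i, (B i).Nonempty := by
    rintro (u | a)
    · exact ⟨u.1, by simp [hB]⟩
    · obtain ⟨x, hx, -⟩ := hF3 a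
      exact ⟨x, hx⟩
  have := minor_of_family (G := Hᶜ) B ?_
    (fun i j hij => disjoint_left.2 fun x hx hx' => hdis i j hij x hx x hx' rfl) ?_
  · simpa using this
  · rintro (u | a)
    · exact ⟨u.1, by simp [hB], fun b hb h => absurd (by simpa [hB] using hb) h⟩
    · obtain ⟨x, hx, hx'⟩ := hF3 a
      exact ⟨x, hx, fun b hb h => hcompl _ _ h.symm (hx' b hb h)⟩
  · intro i j hij
    rcases j with v | b
    · rcases i with u | a
      · exact ⟨u.1, by simp [hB], v.1, by simp [hB],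
          hcompl _ _ (fun h => hij (by rw [Subtype.ext h])) (hU _ u.2 _ v.2)⟩
      · obtain ⟨x, hx, hx'⟩ := hF4 a v.1
        exact ⟨x, hx, v.1, by simp [hB],
          hcompl _ _ (hdis _ _ hij x hx v.1 (by simp [hB])) fun h => hx' h.symm⟩
    · obtain ⟨x, hx⟩ := hone i
      obtain ⟨y, hy, hy'⟩ := hF4 b x
      exact ⟨x, hx, y, hy, hcompl _ _ (hdis i (Sum.inr b) hij x hx y hy) hy'⟩

/-- Colouring and minor of the same order. -/
lemma core {d : ℕ} (hd : ∀ v, (H.neighborFinset v).card ≤ d)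
    (hbnd : (100000 * d) ^ 4 ≤ (Fintype.card V - Hᶜ.cliqueNum) ^ 3) :
    ∃ k, Hᶜ.Colorable k ∧ Fintype.card V ≤ 2 * k ∧ HasCliqueMinor Hᶜ k := by
  rcases Nat.eq_zero_or_pos d with rfl | hd1
  · refine ⟨Fintype.card V, SimpleGraph.colorable_of_fintype _, by omega, ?_⟩
    rw [← card_univ]
    refine minor_of_clique fun x _ y _ hxy => (SimpleGraph.compl_adj _ _ _).2 ⟨hxy, fun h => ?_⟩
    have := card_pos.2 ⟨y, (SimpleGraph.mem_neighborFinset H x y).2 h⟩
    have := hd x
    omega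
  obtain ⟨S, U, hSU, hU, hone, hW, hcol, hn⟩ := exists_decomp H
  refine ⟨_, hcol, hn, ?_⟩
  set W := (S ∪ U)ᶜ with hWdef
  set M := Fintype.card V - Hᶜ.cliqueNum with hM
  have hUω : U.card ≤ Hᶜ.cliqueNum :=
    SimpleGraph.IsClique.card_le_cliqueNum (tc := fun x hx y hy hxy =>
      (SimpleGraph.compl_adj _ _ _).2 ⟨hxy, hU x hx y hy⟩)
  have hWc : W.card + S.card + U.card = Fintype.card V := by
    have := card_compl_add_card (S ∪ U)
    rw [card_union_of_disjoint hSU, ← hWdef] at this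
    omega
  have hMle : M ≤ S.card + W.card := by omega
  rcases le_or_gt M (10 * W.card) with hcase | hcase
  · refine minor_of_pairs H hd hd1 S U hU hone hW ?_
    have h1 : M ^ 3 ≤ 1000 * W.card ^ 3 := by
      calc M ^ 3 ≤ (10 * W.card) ^ 3 := Nat.pow_le_pow_left hcase 3
        _ = _ := by ring
    rw [mul_pow] at hbnd ⊢
    change (2000 : ℕ) ^ 4 * d ^ 4 ≤ W.card ^ 3
    norm_num at hbnd ⊢
    omega
  · have hM3 : 100000 * d ≤ M := by
      have h1 : 100000 * d ≤ (100000 * d) ^ 4 := Nat.le_self_pow (by norm_num) _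
      by_contra h
      push Not at h
      have h2 : M ^ 3 < (100000 * d) ^ 3 := Nat.pow_lt_pow_left h (by norm_num)
      have h3 : (100000 * d) ^ 3 ≤ (100000 * d) ^ 4 := Nat.pow_le_pow_right (by omega) (by norm_num)
      omega
    refine minor_of_quads H hd (L := M / 2) (m := W.card / 2) ?_ S U hSU hU (by omega)
    have h3 : M ^ 3 ≤ 27 * (M / 2) ^ 3 := by
      calc M ^ 3 ≤ (3 * (M / 2)) ^ 3 := Nat.pow_le_pow_left (by omega) 3
        _ = _ := by ring
    have : 0 < d ^ 4 := pow_pos hd1 4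
    rw [mul_pow] at hbnd
    norm_num at hbnd ⊢
    omega

open Classical in
/-- Hadwiger's conjecture for graphs in which every vertex has at most `c (n - ω)^(3/4)`
non-neighbours, together with a `K_⌈n/2⌉` minor when every vertex has at most `c n^(3/4)`
non-neighbours. -/
lemma dense : ∃ c : ℝ, 0 < c ∧ ∀ (V : Type) [Fintype V] [Nonempty V] (G : SimpleGraph V),
    ((∀ v : V, ((univ.filter fun w => w ≠ v ∧ ¬ G.Adj v w).card : ℝ)
        ≤ c * ((Fintype.card V : ℝ) - G.cliqueNum) ^ (3 / 4 : ℝ)) →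
      ∀ t : ℕ, ¬ HasCliqueMinor G (t + 1) → G.Colorable t) ∧
    ((∀ v : V, ((univ.filter fun w => w ≠ v ∧ ¬ G.Adj v w).card : ℝ)
        ≤ c * (Fintype.card V : ℝ) ^ (3 / 4 : ℝ)) →
      HasCliqueMinor G ⌈(Fintype.card V : ℝ) / 2⌉₊) := by
  refine ⟨1 / 200000, by norm_num, ?_⟩
  intro V _ _ G
  set n := Fintype.card V with hn
  set H := Gᶜ with hH
  have hG : G = Hᶜ := by rw [hH, compl_compl]
  set d := univ.sup fun v => (H.neighborFinset v).card with hd
  have hdv : ∀ v, (H.neighborFinset v).card ≤ d := fun v =>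
    le_sup (f := fun v => (H.neighborFinset v).card) (mem_univ v)
  have hω : G.cliqueNum ≤ n := by
    obtain ⟨s, hs⟩ := G.exists_isNClique_cliqueNum
    exact hs.card_eq ▸ card_le_univ s
  have hnum : ∀ N : ℕ, (∀ v : V, ((univ.filter fun w => w ≠ v ∧ ¬ G.Adj v w).card : ℝ)
      ≤ 1 / 200000 * (N : ℝ) ^ (3 / 4 : ℝ)) → (200000 * d) ^ 4 ≤ N ^ 3 := by
    intro N hdeg
    obtain ⟨v, -, hv⟩ := exists_mem_eq_sup univ univ_nonempty
      (fun v => (H.neighborFinset v).card)
    have h : (d : ℝ) ≤ 1 / 200000 * (N : ℝ) ^ (3 / 4 : ℝ) := by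
      rw [hd, hv]
      refine le_trans (le_of_eq ?_) (hdeg v)
      congr 2
      ext w
      simp [hH, eq_comm]
    have hpow : (((N : ℝ) ^ (3 / 4 : ℝ))) ^ 4 = (N : ℝ) ^ 3 := by
      rw [← Real.rpow_natCast, ← Real.rpow_mul (Nat.cast_nonneg N)]
      norm_num
    have h' : ((200000 : ℝ) * d) ^ 4 ≤ (N : ℝ) ^ 3 := by
      rw [← hpow]
      exact pow_le_pow_left₀ (by positivity) (by linarith) 4
    exact_mod_cast h'
  constructor
  · intro hdeg t hno
    have hb := hnum (n - G.cliqueNum) (by rw [Nat.cast_sub hω]; exact hdeg)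
    obtain ⟨k, hk1, -, hk3⟩ := core H hdv (by
      rw [← hG, ← hn, mul_pow]
      rw [mul_pow] at hb
      norm_num at hb ⊢
      omega)
    rw [← hG] at hk1 hk3
    exact hk1.mono (by
      by_contra h
      push Not at h
      exact hno (minor_mono hk3 h))
  · intro hdeg
    have hb := hnum n hdeg
    rcases le_or_gt n (2 * G.cliqueNum) with hbig | hsmall
    · obtain ⟨s, hs⟩ := G.exists_isNClique_cliqueNum
      refine minor_mono (minor_of_clique hs.isClique) ?_
      rw [hs.card_eq, Nat.ceil_le]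
      have : (n : ℝ) ≤ 2 * G.cliqueNum := by exact_mod_cast hbig
      linarith
    · obtain ⟨k, -, hk2, hk3⟩ := core H hdv (by
        rw [← hG, ← hn, mul_pow]
        rw [mul_pow] at hb
        have h1 : n ^ 3 ≤ 8 * (n - G.cliqueNum) ^ 3 := by
          calc n ^ 3 ≤ (2 * (n - G.cliqueNum)) ^ 3 := Nat.pow_le_pow_left (by omega) 3
            _ = _ := by ring
        norm_num at hb ⊢
        omega)
      rw [← hG] at hk3
      refine minor_mono hk3 ?_
      rw [Nat.ceil_le]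
      have : (n : ℝ) ≤ 2 * k := by exact_mod_cast hk2
      linarith

omit [Fintype V] [DecidableEq V] in
/-- A minor of an induced subgraph is a minor. -/
lemma minor_of_induce {G : SimpleGraph V} {Z : Set V} {k : ℕ} (h : HasCliqueMinor (G.induce Z) k) :
    HasCliqueMinor G k := by
  obtain ⟨B, h1, h2, h3⟩ := h
  refine ⟨fun i => Subtype.val '' B i, fun i => ?_, fun i j hij => ?_, fun i j hij => ?_⟩
  · let f : (G.induce Z).induce (B i) →g G.induce (Subtype.val '' B i) :=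
      ⟨fun x => ⟨x.1.1, x.1, x.2, rfl⟩, fun h => h⟩
    refine (h1 i).map f ?_
    rintro ⟨_, y, hy, rfl⟩
    exact ⟨⟨y, hy⟩, rfl⟩
  · exact (Set.disjoint_image_iff Subtype.val_injective).2 (h2 i j hij)
  · obtain ⟨x, hx, y, hy, h⟩ := h3 i j hij
    exact ⟨x.1, ⟨x, hx, rfl⟩, y.1, ⟨y, hy, rfl⟩, h⟩

omit [DecidableEq V] in
/-- Deleting a set of vertices lowers the chromatic number by at most its size. -/
lemma colorable_of_induce {G : SimpleGraph V} {Z : Finset V} {k : ℕ}
    (h : (G.induce (Z : Set V)).Colorable k) :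
    G.Colorable (k + (Fintype.card V - Z.card)) := by
  classical
  obtain ⟨C⟩ := h
  let f : V → Fin k ⊕ {x // x ∉ Z} := fun v =>
    if hv : v ∈ Z then Sum.inl (C ⟨v, hv⟩) else Sum.inr ⟨v, hv⟩
  have col : G.Coloring (Fin k ⊕ {x // x ∉ Z}) := by
    refine SimpleGraph.Coloring.mk f ?_
    intro a b hab h
    by_cases ha : a ∈ Z <;> by_cases hb : b ∈ Z <;> simp [f, ha, hb] at h
    · exact C.valid (show (G.induce (Z : Set V)).Adj ⟨a, ha⟩ ⟨b, hb⟩ from hab) h
    · exact hab.ne h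
  simpa using col.colorable

open Classical in
/-- Few non-edges: Hadwiger's inequality up to an additive `ε n`, and `h ≥ (1/2 - ε) n`. -/
lemma few_nonedges : ∀ ε : ℝ, 0 < ε → ∃ η : ℝ, 0 < η ∧
    ∀ (V : Type) [Fintype V] [Nonempty V] (G : SimpleGraph V),
    ((univ.filter fun p : V × V => p.1 ≠ p.2 ∧ ¬ G.Adj p.1 p.2).card : ℝ)
        ≤ η * (Fintype.card V : ℝ) ^ (7 / 4 : ℝ) →
      ∀ t : ℕ, ¬ HasCliqueMinor G (t + 1) →
        G.Colorable (t + ⌊ε * (Fintype.card V : ℝ)⌋₊) ∧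
        (Fintype.card V : ℝ) / 2 ≤ t + ε * (Fintype.card V : ℝ) := by
  intro ε hε
  obtain ⟨c, hc, hdense⟩ := dense
  refine ⟨ε / 2 * (c * (ε / 2) ^ (3 / 4 : ℝ)), by positivity, ?_⟩
  intro V _ _ G hE t hno
  set n := Fintype.card V with hn
  have hnR : (0 : ℝ) < n := by rw [hn]; exact_mod_cast Fintype.card_pos
  set m := ⌊ε * (n : ℝ)⌋₊ with hm
  have hmlt : ε * (n : ℝ) < m + 1 := Nat.lt_floor_add_one _
  have hmle : (m : ℝ) ≤ ε * n := Nat.floor_le (by positivity)
  have hωt : G.cliqueNum ≤ t := by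
    by_contra h
    push Not at h
    obtain ⟨s, hs⟩ := G.exists_isNClique_cliqueNum
    exact hno (minor_mono (minor_of_clique hs.isClique) (by rw [hs.card_eq]; omega))
  rcases le_or_gt n (G.cliqueNum + m) with hbig | hbig
  · refine ⟨(SimpleGraph.colorable_of_fintype G).mono (by omega), ?_⟩
    have : (n : ℝ) ≤ t + m := by exact_mod_cast (by omega : n ≤ t + m)
    linarith
  set D : ℝ := c * (ε / 2 * (n : ℝ)) ^ (3 / 4 : ℝ) with hD
  have hDpos : 0 < D := by positivity
  let nd : V → ℕ := fun v => (univ.filter fun w => w ≠ v ∧ ¬ G.Adj v w).card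
  set Z : Finset V := univ.filter fun v => (nd v : ℝ) ≤ D with hZ
  set X : Finset V := univ.filter fun v => ¬ (nd v : ℝ) ≤ D with hX
  have hsplit : Z.card + X.card = n := by
    rw [hn, ← card_univ]
    exact card_filter_add_card_filter_not _
  have hsum : (univ.filter fun p : V × V => p.1 ≠ p.2 ∧ ¬ G.Adj p.1 p.2).card
      = ∑ v, nd v := by
    simp only [nd, card_filter]
    rw [Fintype.sum_prod_type]
    simp only [ne_comm]
  have hXc : (X.card : ℝ) ≤ ε / 2 * n := by
    have h1 : (X.card : ℝ) * D ≤ ∑ v ∈ X, (nd v : ℝ) := by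
      rw [← nsmul_eq_mul]
      exact card_nsmul_le_sum _ _ _ fun v hv => (not_le.1 (mem_filter.1 hv).2).le
    have h2 : ∑ v ∈ X, (nd v : ℝ) ≤ ∑ v, (nd v : ℝ) :=
      sum_le_sum_of_subset_of_nonneg (subset_univ _) fun v _ _ => Nat.cast_nonneg _
    rw [hsum] at hE
    push_cast at hE
    have hpow : ε / 2 * (c * (ε / 2) ^ (3 / 4 : ℝ)) * (n : ℝ) ^ (7 / 4 : ℝ)
        = ε / 2 * n * D := by
      rw [hD, Real.mul_rpow (by positivity : (0 : ℝ) ≤ ε / 2) hnR.le,
        show (7 / 4 : ℝ) = 1 + 3 / 4 by norm_num, Real.rpow_add hnR, Real.rpow_one]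
      ring
    rw [hpow] at hE
    exact le_of_mul_le_mul_right (h1.trans (h2.trans hE)) hDpos
  set G' := G.induce (Z : Set V) with hG'
  have hω' : G'.cliqueNum ≤ G.cliqueNum := SimpleGraph.cliqueNum_induce_le _
  have hbigR : (G.cliqueNum : ℝ) + m + 1 ≤ n := by exact_mod_cast hbig
  have hsplitR : (Z.card : ℝ) + X.card = n := by exact_mod_cast hsplit
  have hω'R : (G'.cliqueNum : ℝ) ≤ G.cliqueNum := by exact_mod_cast hω'
  have hne : Nonempty (Z : Set V) := by
    have : 0 < Z.card := by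
      by_contra h
      have : (Z.card : ℝ) = 0 := by exact_mod_cast (by omega : Z.card = 0)
      linarith [Nat.cast_nonneg (α := ℝ) G.cliqueNum]
    obtain ⟨x, hx⟩ := card_pos.1 this
    exact ⟨⟨x, hx⟩⟩
  have hcardZ : Fintype.card (Z : Set V) = Z.card := by simp
  have hdeg : ∀ v : (Z : Set V),
      ((univ.filter fun w => w ≠ v ∧ ¬ G'.Adj v w).card : ℝ) ≤ D := by
    intro v
    refine le_trans ?_ (mem_filter.1 v.2).2
    refine Nat.cast_le.2 (card_le_card_of_injOn Subtype.val (fun w hw => ?_)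
      Subtype.val_injective.injOn)
    simp only [coe_filter, mem_univ, true_and, Set.mem_ofPred_eq] at hw ⊢
    exact ⟨fun h => hw.1 (Subtype.ext h), fun h => hw.2 h⟩
  have hno' : ¬ HasCliqueMinor G' (t + 1) := fun h => hno (minor_of_induce h)
  obtain ⟨h1, h2⟩ := hdense (Z : Set V) G'
  have hD1 : D ≤ c * ((Fintype.card (Z : Set V) : ℝ) - G'.cliqueNum) ^ (3 / 4 : ℝ) := by
    rw [hD, hcardZ]
    refine mul_le_mul_of_nonneg_left (Real.rpow_le_rpow (by positivity) ?_ (by norm_num)) hc.le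
    linarith
  have hD2 : D ≤ c * (Fintype.card (Z : Set V) : ℝ) ^ (3 / 4 : ℝ) := by
    rw [hD, hcardZ]
    refine mul_le_mul_of_nonneg_left (Real.rpow_le_rpow (by positivity) ?_ (by norm_num)) hc.le
    linarith [Nat.cast_nonneg (α := ℝ) G.cliqueNum]
  constructor
  · have hcol := h1 (fun v => by exact le_trans (le_of_eq (by congr!)) (le_trans (hdeg v) hD1)) t hno'
    refine (colorable_of_induce hcol).mono (Nat.add_le_add_left ?_ t)
    rw [← hn]
    have : X.card ≤ m := Nat.le_floor (by linarith [mul_pos hε hnR])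
    omega
  · have hmin := h2 (fun v => by exact le_trans (le_of_eq (by congr!)) (le_trans (hdeg v) hD2))
    rw [hcardZ] at hmin
    have hle : ⌈(Z.card : ℝ) / 2⌉₊ ≤ t := by
      by_contra h
      push Not at h
      exact hno' (minor_mono hmin h)
    have : (Z.card : ℝ) / 2 ≤ t := (Nat.le_ceil _).trans (by exact_mod_cast hle)
    linarith [mul_pos hε hnR]

open Classical in
/-- Hadwiger's conjecture for dense graphs relative to `n - ω`, the `⌈n/2⌉` minor, and the version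
for few non-edges up to an additive `ε n`. -/
theorem result :
    (∃ c : ℝ, 0 < c ∧ ∀ (V : Type) [Fintype V] [Nonempty V] (G : SimpleGraph V),
      ((∀ v : V, ((univ.filter fun w => w ≠ v ∧ ¬ G.Adj v w).card : ℝ)
          ≤ c * ((Fintype.card V : ℝ) - G.cliqueNum) ^ (3 / 4 : ℝ)) →
        ∀ t : ℕ, ¬ HasCliqueMinor G (t + 1) → G.Colorable t) ∧
      ((∀ v : V, ((univ.filter fun w => w ≠ v ∧ ¬ G.Adj v w).card : ℝ)
          ≤ c * (Fintype.card V : ℝ) ^ (3 / 4 : ℝ)) →
        HasCliqueMinor G ⌈(Fintype.card V : ℝ) / 2⌉₊)) ∧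
    (∀ ε : ℝ, 0 < ε → ∃ η : ℝ, 0 < η ∧
      ∀ (V : Type) [Fintype V] [Nonempty V] (G : SimpleGraph V),
      ((univ.filter fun p : V × V => p.1 ≠ p.2 ∧ ¬ G.Adj p.1 p.2).card : ℝ)
          ≤ η * (Fintype.card V : ℝ) ^ (7 / 4 : ℝ) →
        ∀ t : ℕ, ¬ HasCliqueMinor G (t + 1) →
          G.Colorable (t + ⌊ε * (Fintype.card V : ℝ)⌋₊) ∧
          (Fintype.card V : ℝ) / 2 ≤ t + ε * (Fintype.card V : ℝ)) :=
  ⟨dense, few_nonedges⟩

end Vale.Agent.Results.P060.DenseHadwiger
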