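import Vale.Agent.P060.CliquePart

set_option linter.unusedSectionVars false

namespace Vale.Agent.Results.P060.InducedP4Packing

open Finset Vale.Agent.P060

/-- `G` has a `K_m` minor: `m` pairwise disjoint sets inducing connected (so nonempty) subgraphs,
any two of them joined by an edge. -/
def HasCliqueMinor {V : Type} (G : SimpleGraph V) (m : ℕ) : Prop :=
  ∃ B : Fin m → Set V, (∀ i, (G.induce (B i)).Connected) ∧
    (∀ i j, i ≠ j → Disjoint (B i) (B j)) ∧
    (∀ i j, i ≠ j → ∃ x ∈ B i, ∃ y ∈ B j, G.Adj x y)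

/-- `a - b - c - d` is an induced path on four vertices. -/
def IsP4 {V : Type} (G : SimpleGraph V) (a b c d : V) : Prop :=
  G.Adj a b ∧ G.Adj b c ∧ G.Adj c d ∧ ¬ G.Adj a c ∧ ¬ G.Adj a d ∧ ¬ G.Adj b d

/-- `G` contains `r` induced paths on four vertices, pairwise disjoint and with no edge between
any two of them. -/
def HasP4Packing {V : Type} (G : SimpleGraph V) (r : ℕ) : Prop :=
  ∃ p : Fin r → Fin 4 → V, (∀ i, IsP4 G (p i 0) (p i 1) (p i 2) (p i 3)) ∧
    ∀ i j, i ≠ j → ∀ a b, p i a ≠ p j b ∧ ¬ G.Adj (p i a) (p j b)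

variable {V : Type} [Fintype V] [DecidableEq V] {G : SimpleGraph V}

/-- A set inducing a connected subgraph. -/
def Conn (G : SimpleGraph V) (B : Finset V) : Prop :=
  ∃ a ∈ B, ∀ x ∈ B, (within G B).Reachable a x

/-- A clique minor inside `X` whose branch sets all satisfy `P`. -/
def MinorIn (G : SimpleGraph V) (P : Finset V → Prop) (X : Finset V) (m : ℕ) : Prop :=
  ∃ B : Fin m → Finset V, (∀ i, B i ⊆ X ∧ Conn G (B i) ∧ P (B i)) ∧
    (∀ i j, i ≠ j → Disjoint (B i) (B j)) ∧
    (∀ i j, i ≠ j → ∃ x ∈ B i, ∃ y ∈ B j, G.Adj x y)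

lemma MinorIn.mono {P : Finset V → Prop} {X Y : Finset V} {m : ℕ} (h : MinorIn G P X m)
    (hXY : X ⊆ Y) : MinorIn G P Y m := by
  obtain ⟨B, h1, h2, h3⟩ := h
  exact ⟨B, fun i => ⟨(h1 i).1.trans hXY, (h1 i).2⟩, h2, h3⟩

lemma minor_zero (P : Finset V → Prop) (X : Finset V) : MinorIn G P X 0 :=
  ⟨Fin.elim0, fun i => i.elim0, fun i => i.elim0, fun i => i.elim0⟩

lemma MinorIn.hasCliqueMinor {P : Finset V → Prop} {X : Finset V} {m k : ℕ}
    (h : MinorIn G P X m) (hk : k ≤ m) : HasCliqueMinor G k := by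
  obtain ⟨B, h1, h2, h3⟩ := h
  refine ⟨fun i => ↑(B (Fin.castLE hk i)), fun i => ?_, fun i j hij =>
    disjoint_coe.2 (h2 _ _ fun e => hij (Fin.castLE_injective hk e)),
    fun i j hij => h3 _ _ fun e => hij (Fin.castLE_injective hk e)⟩
  set D := B (Fin.castLE hk i)
  obtain ⟨a, ha, hreach⟩ := (h1 (Fin.castLE hk i)).2.1
  rw [SimpleGraph.connected_iff_exists_forall_reachable]
  refine ⟨⟨a, ha⟩, fun ⟨b, hb⟩ => ?_⟩
  obtain ⟨w⟩ := hreach b hb
  have key : ∀ (x y : V), (within G D).Walk x y → ∀ (hx : x ∈ D) (hy : y ∈ D),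
      (G.induce (D : Set V)).Reachable ⟨x, hx⟩ ⟨y, hy⟩ := by
    intro x y w
    induction w with
    | nil => exact fun _ _ => SimpleGraph.Reachable.refl _
    | cons h _ ih =>
      intro hx hy
      exact (SimpleGraph.Adj.reachable
        (show (G.induce (D : Set V)).Adj ⟨_, hx⟩ ⟨_, h.2.2⟩ from h.1)).trans (ih h.2.2 hy)
  exact key a b w ha hb

lemma cpart_compl_singles (D : Finset V) : CPart Gᶜ D D.card := by
  classical
  refine (cpart_image (f := fun x => (Fintype.equivFin V x : ℕ)) fun x _ y _ hne he =>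
    absurd ((Fintype.equivFin V).injective (Fin.ext he)) hne).mono (subset_refl _) card_image_le

/-- Partitions of two parts with no edge between them can share their classes. -/
lemma cpart_parallel {A B : Finset V} {k : ℕ} (hA : CPart Gᶜ A k) (hB : CPart Gᶜ B k)
    (hno : ∀ x ∈ A, ∀ y ∈ B, ¬ G.Adj x y) : CPart Gᶜ (A ∪ B) k := by
  obtain ⟨f, f1, f2⟩ := hA
  obtain ⟨g, g1, g2⟩ := hB
  refine ⟨fun x => if x ∈ A then f x else g x, fun x hx => ?_, fun x hx y hy hne he => ?_⟩
  · by_cases h : x ∈ A
    · simp only [if_pos h]; exact f1 x h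
    · simp only [if_neg h]; exact g1 x ((mem_union.1 hx).resolve_left h)
  · by_cases h : x ∈ A <;> by_cases h' : y ∈ A <;> simp only [h, h', if_true, if_false] at he
    · exact f2 x h y h' hne he
    · exact (SimpleGraph.compl_adj _ _ _).2 ⟨hne, hno x h y ((mem_union.1 hy).resolve_left h')⟩
    · exact (SimpleGraph.compl_adj _ _ _).2
        ⟨hne, fun e => hno y h' x ((mem_union.1 hx).resolve_left h) e.symm⟩
    · exact g2 x ((mem_union.1 hx).resolve_left h) y ((mem_union.1 hy).resolve_left h') hne he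

/-- no induced `P₄` inside `X` -/
def P4Free (G : SimpleGraph V) (X : Finset V) : Prop :=
  ∀ a ∈ X, ∀ b ∈ X, ∀ c ∈ X, ∀ d ∈ X, ¬ IsP4 G a b c d

lemma P4Free.sub {X Y : Finset V} (h : P4Free G Y) (hXY : X ⊆ Y) : P4Free G X :=
  fun a ha b hb c hc d hd => h a (hXY ha) b (hXY hb) c (hXY hc) d (hXY hd)

/-- `A` and `X \ A` give a split of `X` into non-adjacent or completely adjacent parts. -/
def Splits (G : SimpleGraph V) (X : Finset V) : Prop :=
  ∃ A, A ⊆ X ∧ A.Nonempty ∧ (X \ A).Nonempty ∧
    ((∀ x ∈ A, ∀ y ∈ X \ A, ¬ G.Adj x y) ∨ (∀ x ∈ A, ∀ y ∈ X \ A, G.Adj x y))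

lemma p4Free_compl {X : Finset V} (h : P4Free G X) : P4Free Gᶜ X := by
  intro a ha b hb c hc d hd ⟨h1, h2, h3, h4, h5, h6⟩
  simp only [SimpleGraph.compl_adj, not_and, not_not] at h1 h2 h3 h4 h5 h6
  have hac : a ≠ c := fun e => by subst e; exact h3.2 (h5 h3.1)
  have hbd : b ≠ d := fun e => by subst e; exact h1.2 (h5 h1.1)
  have had : a ≠ d := fun e => by subst e; exact h3.2 (h4 hac).symm
  exact h b hb d hd a ha c hc ⟨h6 hbd, (h5 had).symm, h4 hac, fun e => h1.2 e.symm, h2.2,
    fun e => h3.2 e.symm⟩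

lemma splits_compl {X : Finset V} (h : Splits Gᶜ X) : Splits G X := by
  obtain ⟨A, h1, h2, h3, h4 | h4⟩ := h
  · refine ⟨A, h1, h2, h3, Or.inr fun x hx y hy => by_contra fun e => h4 x hx y hy ?_⟩
    exact (SimpleGraph.compl_adj _ _ _).2 ⟨fun e' => (mem_sdiff.1 hy).2 (e' ▸ hx), e⟩
  · exact ⟨A, h1, h2, h3, Or.inl fun x hx y hy => ((SimpleGraph.compl_adj _ _ _).1 (h4 x hx y hy)).2⟩

lemma extend_split {X A : Finset V} {v : V} (hfree : P4Free G X) (hv : v ∈ X)
    (hA : A ⊆ X.erase v) (hA1 : A.Nonempty) (hA2 : (X.erase v \ A).Nonempty)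
    (hno : ∀ x ∈ A, ∀ y ∈ X.erase v \ A, ¬ G.Adj x y) : Splits G X := by
  classical
  set B := X.erase v \ A with hB
  have hvA : v ∉ A := fun h => notMem_erase v X (hA h)
  have hvB : v ∉ B := fun h => notMem_erase v X (mem_sdiff.1 h).1
  have hAX : A ⊆ X := hA.trans (erase_subset _ _)
  have hBX : B ⊆ X := sdiff_subset.trans (erase_subset _ _)
  have hcases : ∀ y ∈ X, y = v ∨ y ∈ A ∨ y ∈ B := fun y hy => by
    by_cases h1 : y = v
    · exact Or.inl h1
    by_cases h2 : y ∈ A
    · exact Or.inr (Or.inl h2)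
    exact Or.inr (Or.inr (mem_sdiff.2 ⟨mem_erase.2 ⟨h1, hy⟩, h2⟩))
  by_cases ha : ∀ a ∈ A, ¬ G.Adj a v
  · refine ⟨A, hAX, hA1, ⟨v, mem_sdiff.2 ⟨hv, hvA⟩⟩, Or.inl fun x hx y hy => ?_⟩
    rcases hcases y (mem_sdiff.1 hy).1 with rfl | h | h
    exacts [ha x hx, absurd h (mem_sdiff.1 hy).2, hno x hx y h]
  by_cases hb : ∀ b ∈ B, ¬ G.Adj b v
  · refine ⟨B, hBX, hA2, ⟨v, mem_sdiff.2 ⟨hv, hvB⟩⟩, Or.inl fun x hx y hy => ?_⟩
    rcases hcases y (mem_sdiff.1 hy).1 with rfl | h | h
    exacts [hb x hx, fun e => hno y h x hx e.symm, absurd h (mem_sdiff.1 hy).2]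
  push Not at ha hb
  by_cases hall : ∀ x ∈ X.erase v, G.Adj v x
  · refine ⟨{v}, singleton_subset_iff.2 hv, singleton_nonempty v, ?_, Or.inr fun x hx y hy => ?_⟩
    · rw [← erase_eq]; exact hA1.mono hA
    · rw [← erase_eq] at hy; exact mem_singleton.1 hx ▸ hall y hy
  push Not at hall
  obtain ⟨x0, hx0, hx0v⟩ := hall
  have key : ∀ P Q : Finset V, P ⊆ X → Q ⊆ X → v ∉ P → (∀ x ∈ P, ∀ y ∈ Q, ¬ G.Adj x y) →
      (∀ y ∈ X, y = v ∨ y ∈ P ∨ y ∈ Q) → (∃ b ∈ Q, G.Adj b v) → x0 ∈ P → Splits G X := by
    intro P Q hP hQ hvP hPQ hc ⟨b, hb, hbv⟩ hx0P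
    refine ⟨P.filter fun x => ¬ G.Adj x v, (filter_subset _ _).trans hP,
      ⟨x0, mem_filter.2 ⟨hx0P, fun e => hx0v e.symm⟩⟩,
      ⟨v, mem_sdiff.2 ⟨hv, fun h => hvP (mem_filter.1 h).1⟩⟩, Or.inl fun x hx y hy hxy => ?_⟩
    obtain ⟨hxP, hxv⟩ := mem_filter.1 hx
    obtain ⟨hyX, hyN⟩ := mem_sdiff.1 hy
    rcases hc y hyX with rfl | h | h
    · exact hxv hxy
    · have hyv : G.Adj y v := by_contra fun e => hyN (mem_filter.2 ⟨h, e⟩)
      exact hfree x (hP hxP) y hyX v hv b (hQ hb)
        ⟨hxy, hyv, hbv.symm, hxv, hPQ x hxP b hb, hPQ y h b hb⟩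
    · exact hPQ x hxP y h hxy
  rcases hcases x0 (mem_of_mem_erase hx0) with h | h | h
  · exact absurd h (mem_erase.1 hx0).1
  · exact key A B hAX hBX hvA hno hcases hb h
  · exact key B A hBX hAX hvB (fun x hx y hy e => hno y hy x hx e.symm)
      (fun y hy => (hcases y hy).imp_right Or.symm) ha h

/-- Seinsche's theorem. -/
lemma seinsche (X : Finset V) : P4Free G X → 2 ≤ X.card → Splits G X := by
  classical
  induction X using Finset.strongInduction with
  | H X ih =>
    intro hfree hcard
    obtain ⟨v, hv⟩ : X.Nonempty := card_pos.1 (by omega)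
    have hec := card_erase_add_one hv
    rcases le_or_gt (X.erase v).card 1 with h1 | h2
    · obtain ⟨w, hw⟩ : (X.erase v).Nonempty := card_pos.1 (by omega)
      have hX : X \ {v} = {w} := by
        rw [← erase_eq]
        exact eq_singleton_iff_unique_mem.2 ⟨hw, fun y hy => card_le_one.1 h1 y hy w hw⟩
      refine ⟨{v}, singleton_subset_iff.2 hv, singleton_nonempty v, by simp [hX], ?_⟩
      by_cases hvw : G.Adj v w
      · exact Or.inr fun x hx y hy => by
          rw [hX, mem_singleton] at hy; rw [mem_singleton] at hx; rw [hx, hy]; exact hvw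
      · exact Or.inl fun x hx y hy => by
          rw [hX, mem_singleton] at hy; rw [mem_singleton] at hx; rw [hx, hy]; exact hvw
    obtain ⟨A, hA, hA1, hA2, hno | hfull⟩ := ih _ (erase_ssubset hv) (hfree.sub (erase_subset _ _)) h2
    · exact extend_split hfree hv hA hA1 hA2 hno
    · exact splits_compl (extend_split (p4Free_compl hfree) hv hA hA1 hA2
        fun x hx y hy e => ((SimpleGraph.compl_adj _ _ _).1 e).2 (hfull x hx y hy))

/-- optimal colouring number of a part -/
def Opt (G : SimpleGraph V) (X : Finset V) (c : ℕ) : Prop :=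
  CPart Gᶜ X c ∧ ∀ c', CPart Gᶜ X c' → c ≤ c'

lemma exists_opt (G : SimpleGraph V) (X : Finset V) : ∃ c, Opt G X c := by
  classical
  have h : ∃ c, CPart Gᶜ X c := ⟨_, cpart_compl_singles X⟩
  exact ⟨Nat.find h, Nat.find_spec h, fun c' hc' => Nat.find_min' h hc'⟩

lemma conn_singleton (v : V) : Conn G {v} :=
  ⟨v, mem_singleton_self v, fun x hx => by rw [mem_singleton.1 hx]⟩

/-- `P₄`-free graphs satisfy Hadwiger's inequality. -/
lemma cograph_minor (X : Finset V) :
    P4Free G X → ∀ c, Opt G X c → MinorIn G (fun _ => True) X c := by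
  classical
  induction X using Finset.strongInduction with
  | H X ih =>
    intro hfree c hc
    rcases le_or_gt X.card 1 with h1 | h2
    · have hcX := hc.2 _ (cpart_compl_singles X)
      rcases Nat.eq_zero_or_pos c with rfl | hpos
      · exact minor_zero _ _
      obtain ⟨v, hv⟩ : X.Nonempty := card_pos.1 (by omega)
      obtain rfl : c = 1 := by omega
      refine ⟨fun _ => {v}, fun _ => ⟨singleton_subset_iff.2 hv, conn_singleton v, trivial⟩,
        fun i j h => absurd (Subsingleton.elim i j) h, fun i j h => absurd (Subsingleton.elim i j) h⟩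
    obtain ⟨A, hA, hA1, hA2, hsplit⟩ := seinsche X hfree h2
    have hAss : A ⊂ X := by
      obtain ⟨y, hy⟩ := hA2
      exact (ssubset_iff_of_subset hA).2 ⟨y, (mem_sdiff.1 hy).1, (mem_sdiff.1 hy).2⟩
    obtain ⟨a, ha⟩ := exists_opt G A
    obtain ⟨b, hb⟩ := exists_opt G (X \ A)
    have hMA := ih A hAss (hfree.sub hA) a ha
    have hMB := ih (X \ A) (sdiff_ssubset hA hA1) (hfree.sub sdiff_subset) b hb
    rcases hsplit with hno | hfull
    · have hle : c ≤ max a b := hc.2 _ ((cpart_parallel (ha.1.mono (subset_refl _) (le_max_left a b))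
        (hb.1.mono (subset_refl _) (le_max_right a b)) hno).mono
          (by rw [union_sdiff_of_subset hA]) le_rfl)
      rcases le_or_gt c a with h | h
      · obtain ⟨B, B1, B2, B3⟩ := hMA.mono hA
        exact ⟨fun i => B (Fin.castLE h i), fun i => B1 _,
          fun i j hij => B2 _ _ fun e => hij (Fin.castLE_injective h e),
          fun i j hij => B3 _ _ fun e => hij (Fin.castLE_injective h e)⟩
      · have h' : c ≤ b := by omega
        obtain ⟨B, B1, B2, B3⟩ := hMB.mono sdiff_subset
        exact ⟨fun i => B (Fin.castLE h' i), fun i => B1 _,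
          fun i j hij => B2 _ _ fun e => hij (Fin.castLE_injective h' e),
          fun i j hij => B3 _ _ fun e => hij (Fin.castLE_injective h' e)⟩
    · have hle : c ≤ a + b := hc.2 _ ((ha.1.union hb.1).mono
        (by rw [union_sdiff_of_subset hA]) le_rfl)
      obtain ⟨P, P1, P2, P3⟩ := hMA
      obtain ⟨Q, Q1, Q2, Q3⟩ := hMB
      refine ⟨fun i => Fin.addCases P Q (Fin.castLE hle i), fun i => ?_, fun i j hij => ?_,
        fun i j hij => ?_⟩
      · dsimp only
        generalize Fin.castLE hle i = k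
        refine Fin.addCases (fun k => ?_) (fun k => ?_) k
        · simp only [Fin.addCases_left]
          exact ⟨(P1 k).1.trans hA, (P1 k).2⟩
        · simp only [Fin.addCases_right]
          exact ⟨(Q1 k).1.trans sdiff_subset, (Q1 k).2⟩
      · have hne : Fin.castLE hle i ≠ Fin.castLE hle j := fun e => hij (Fin.castLE_injective hle e)
        dsimp only
        revert hne
        generalize Fin.castLE hle i = k
        generalize Fin.castLE hle j = l
        refine Fin.addCases (fun k => ?_) (fun k => ?_) k <;>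
          refine Fin.addCases (fun l => ?_) (fun l => ?_) l <;>
          intro hne <;> simp only [Fin.addCases_left, Fin.addCases_right]
        · exact P2 k l fun e => hne (by rw [e])
        · exact disjoint_sdiff.mono (P1 k).1 (Q1 l).1
        · exact disjoint_sdiff.symm.mono (Q1 k).1 (P1 l).1
        · exact Q2 k l fun e => hne (by rw [e])
      · have hne : Fin.castLE hle i ≠ Fin.castLE hle j := fun e => hij (Fin.castLE_injective hle e)
        dsimp only
        revert hne
        generalize Fin.castLE hle i = k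
        generalize Fin.castLE hle j = l
        refine Fin.addCases (fun k => ?_) (fun k => ?_) k <;>
          refine Fin.addCases (fun l => ?_) (fun l => ?_) l <;>
          intro hne <;> simp only [Fin.addCases_left, Fin.addCases_right]
        · exact P3 k l fun e => hne (by rw [e])
        · obtain ⟨x, hx, -⟩ := (P1 k).2.1
          obtain ⟨y, hy, -⟩ := (Q1 l).2.1
          exact ⟨x, hx, y, hy, hfull x ((P1 k).1 hx) y ((Q1 l).1 hy)⟩
        · obtain ⟨x, hx, -⟩ := (Q1 k).2.1
          obtain ⟨y, hy, -⟩ := (P1 l).2.1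
          exact ⟨x, hx, y, hy, (hfull y ((P1 l).1 hy) x ((Q1 k).1 hx)).symm⟩
        · exact Q3 k l fun e => hne (by rw [e])

/-- `Q` contains an induced `P₄` inside `Q` -/
def HasP4 (G : SimpleGraph V) (Q : Finset V) : Prop :=
  ∃ a ∈ Q, ∃ b ∈ Q, ∃ c ∈ Q, ∃ d ∈ Q, IsP4 G a b c d

lemma reach_mono {S T : Finset V} (h : S ⊆ T) {x y : V} (hr : (within G S).Reachable x y) :
    (within G T).Reachable x y :=
  hr.mono (show within G S ≤ within G T from fun _ _ e => ⟨e.1, h e.2.1, h e.2.2⟩)

lemma reach_edge {S : Finset V} {x y : V} (h : G.Adj x y) (hx : x ∈ S) (hy : y ∈ S) :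
    (within G S).Reachable x y :=
  SimpleGraph.Adj.reachable (G := within G S) ⟨h, hx, hy⟩

open Classical in
/-- A small connected set meeting the neighbourhood of every induced `P₄` of `X`. -/
lemma exists_dominating {r : ℕ} (hr : ¬ HasP4Packing G r) {X : Finset V}
    (hconn : ∀ A, A ⊆ X → A.Nonempty → (X \ A).Nonempty → ∃ x ∈ A, ∃ y ∈ X \ A, G.Adj x y)
    (hP : HasP4 G X) :
    ∃ D, D ⊆ X ∧ D.card ≤ 7 * r ∧ Conn G D ∧ HasP4 G D ∧
      ∀ a ∈ X, ∀ b ∈ X, ∀ c ∈ X, ∀ d ∈ X, IsP4 G a b c d →
        ∃ z ∈ ({a, b, c, d} : Finset V), z ∈ D ∨ ∃ w ∈ D, G.Adj z w := by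
  by_contra hno
  push Not at hno
  have key : ∀ i, 1 ≤ i → ∃ D, D ⊆ X ∧ D.card + 3 ≤ 7 * i ∧ Conn G D ∧ HasP4 G D ∧
      ∃ p : Fin i → Fin 4 → V, (∀ k, IsP4 G (p k 0) (p k 1) (p k 2) (p k 3)) ∧
        (∀ k a, p k a ∈ D) ∧
        ∀ k l, k ≠ l → ∀ a b, p k a ≠ p l b ∧ ¬ G.Adj (p k a) (p l b) := by
    intro i hi
    induction i, hi using Nat.le_induction with
    | base =>
      obtain ⟨a, ha, b, hb, c, hc, d, hd, hp⟩ := hP
      refine ⟨{a, b, c, d}, ?_, ?_, ?_, ⟨a, by simp, b, by simp, c, by simp, d, by simp, hp⟩,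
        fun _ => ![a, b, c, d], fun _ => hp, fun _ k => ?_,
        fun k l h => absurd (Subsingleton.elim k l) h⟩
      · intro x hx
        simp only [mem_insert, mem_singleton] at hx
        rcases hx with rfl | rfl | rfl | rfl <;> assumption
      · have : ({a, b, c, d} : Finset V).card ≤ 4 := card_le_four
        omega
      · refine ⟨a, by simp, fun x hx => ?_⟩
        have h1 : (within G ({a, b, c, d} : Finset V)).Reachable a b :=
          reach_edge hp.1 (by simp) (by simp)
        have h2 := h1.trans (reach_edge (S := ({a, b, c, d} : Finset V)) hp.2.1 (by simp) (by simp))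
        have h3 := h2.trans (reach_edge (S := ({a, b, c, d} : Finset V)) hp.2.2.1 (by simp) (by simp))
        simp only [mem_insert, mem_singleton] at hx
        rcases hx with rfl | rfl | rfl | rfl
        exacts [SimpleGraph.Reachable.refl _, h1, h2, h3]
      · fin_cases k <;> simp
    | succ i hi ih =>
      obtain ⟨D, hDX, hDc, hDconn, hDP, p, hp1, hp2, hp3⟩ := ih
      have hir : i ≤ r := by
        by_contra h
        push Not at h
        exact hr ⟨fun k => p (Fin.castLE h.le k), fun k => hp1 _,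
          fun k l hkl => hp3 _ _ fun e => hkl (Fin.castLE_injective h.le e)⟩
      obtain ⟨a, ha, b, hb, c, hc, d, hd, hpath, hfar⟩ := hno D hDX (by omega) hDconn hDP
      set U := X.filter fun x => x ∉ D ∧ ∀ w ∈ D, ¬ G.Adj x w with hU
      have hinU : ∀ x ∈ ({a, b, c, d} : Finset V), x ∈ X → x ∈ U := fun x hx hxX =>
        mem_filter.2 ⟨hxX, (hfar x hx).1, (hfar x hx).2⟩
      have haU := hinU a (by simp) ha
      have hbU := hinU b (by simp) hb
      have hcU := hinU c (by simp) hc
      have hdU := hinU d (by simp) hd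
      obtain ⟨C, hC, haC⟩ := exists_comp G haU
      have hbC := comp_closed hC haC hbU hpath.1
      have hcC := comp_closed hC hbC hcU hpath.2.1
      have hdC := comp_closed hC hcC hdU hpath.2.2.1
      have hCU := comp_sub hC
      have hCX : C ⊆ X := hCU.trans (filter_subset _ _)
      obtain ⟨z, hz⟩ := (show Conn G D from hDconn)
      obtain ⟨x, hx, y, hy, hxy⟩ := hconn C hCX ⟨a, haC⟩
        ⟨z, mem_sdiff.2 ⟨hDX hz.1, fun h => (mem_filter.1 (hCU h)).2.1 hz.1⟩⟩
      obtain ⟨hyX, hyC⟩ := mem_sdiff.1 hy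
      have hxU := mem_filter.1 (hCU hx)
      have hyD : y ∉ D := fun h => hxU.2.2 y h hxy
      obtain ⟨w, hw, hyw⟩ : ∃ w ∈ D, G.Adj y w := by
        by_contra h
        push Not at h
        exact hyC (comp_closed hC hx (mem_filter.2 ⟨hyX, hyD, h⟩) hxy)
      -- a path on four vertices close to `x`
      obtain ⟨Q, hQC, hQc, hQconn, a', ha', b', hb', c', hc', d', hd', hpath'⟩ :
          ∃ Q, Q ⊆ C ∧ Q.card ≤ 5 ∧ (∀ q ∈ Q, (within G (insert x Q)).Reachable x q) ∧
            HasP4 G Q := by
        by_cases h3 : ∃ p' ∈ C, ∃ q ∈ C, ∃ s ∈ C, IsP4 G x p' q s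
        · obtain ⟨p', hp', q, hq, s, hs, hps⟩ := h3
          refine ⟨{x, p', q, s}, ?_, card_le_four.trans (by norm_num), ?_,
            x, by simp, p', by simp, q, by simp, s, by simp, hps⟩
          · intro v hv
            simp only [mem_insert, mem_singleton] at hv
            rcases hv with rfl | rfl | rfl | rfl <;> assumption
          · intro v hv
            have h1 : (within G (insert x ({x, p', q, s} : Finset V))).Reachable x p' :=
              reach_edge hps.1 (by simp) (by simp)
            have h2 := h1.trans (reach_edge (S := insert x ({x, p', q, s} : Finset V)) hps.2.1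
              (by simp) (by simp))
            have h3 := h2.trans (reach_edge (S := insert x ({x, p', q, s} : Finset V)) hps.2.2.1
              (by simp) (by simp))
            simp only [mem_insert, mem_singleton] at hv
            rcases hv with rfl | rfl | rfl | rfl
            exacts [SimpleGraph.Reachable.refl _, h1, h2, h3]
        · push Not at h3
          have hball : ∀ v ∈ C, v = x ∨ G.Adj x v ∨ ∃ p' ∈ C, G.Adj x p' ∧ G.Adj p' v := by
            have hwalk : ∀ (s e : V), (within G U).Walk s e → s ∈ C →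
                (s = x ∨ G.Adj x s ∨ ∃ p' ∈ C, G.Adj x p' ∧ G.Adj p' s) →
                (e = x ∨ G.Adj x e ∨ ∃ p' ∈ C, G.Adj x p' ∧ G.Adj p' e) := by
              intro s e w
              induction w with
              | nil => exact fun _ h => h
              | @cons s t e h _ ih =>
                intro hs hball
                have ht := comp_closed hC hs h.2.2 h.1
                refine ih ht ?_
                by_cases h1 : t = x
                · exact Or.inl h1
                by_cases h2 : G.Adj x t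
                · exact Or.inr (Or.inl h2)
                rcases hball with h0 | h0 | ⟨p', hp', e1, e2⟩
                · exact absurd (h0 ▸ h.1) h2
                · exact Or.inr (Or.inr ⟨s, hs, h0, h.1⟩)
                · by_cases h3' : G.Adj p' t
                  · exact Or.inr (Or.inr ⟨p', hp', e1, h3'⟩)
                  by_cases h4 : G.Adj x s
                  · exact Or.inr (Or.inr ⟨s, hs, h4, h.1⟩)
                  exact absurd ⟨e1, e2, h.1, h4, h2, h3'⟩ (h3 p' hp' s hs t ht)
            intro v hv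
            rw [comp_eq hC hx, mem_compOf] at hv
            obtain ⟨w'⟩ := hv.2
            exact hwalk x v w' hx (Or.inl rfl)
          have hpred : ∀ v ∈ C, ∃ Q, Q ⊆ C ∧ v ∈ Q ∧ Q.card ≤ 2 ∧
              ∀ q ∈ Q, (within G (insert x Q)).Reachable x q := by
            intro v hv
            rcases hball v hv with h | h | ⟨p', hp', e1, e2⟩
            · exact ⟨{v}, singleton_subset_iff.2 hv, mem_singleton_self v, by simp,
                fun q hq => by rw [mem_singleton.1 hq, h]⟩
            · exact ⟨{v}, singleton_subset_iff.2 hv, mem_singleton_self v, by simp,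
                fun q hq => by rw [mem_singleton.1 hq]; exact reach_edge h (by simp) (by simp)⟩
            · refine ⟨{p', v}, ?_, by simp, card_le_two, fun q hq => ?_⟩
              · intro q hq
                simp only [mem_insert, mem_singleton] at hq
                rcases hq with rfl | rfl <;> assumption
              · have r1 : (within G (insert x ({p', v} : Finset V))).Reachable x p' :=
                  reach_edge e1 (by simp) (by simp)
                simp only [mem_insert, mem_singleton] at hq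
                rcases hq with rfl | rfl
                exacts [r1, r1.trans (reach_edge e2 (by simp) (by simp))]
          obtain ⟨Qa, q1, q2, q3, q4⟩ := hpred a haC
          refine ⟨Qa ∪ {b, c, d}, ?_, ?_, ?_, a, mem_union_left _ q2, b, by simp, c, by simp, d,
            by simp, hpath⟩
          · refine union_subset q1 fun v hv => ?_
            simp only [mem_insert, mem_singleton] at hv
            rcases hv with rfl | rfl | rfl <;> assumption
          · have := card_union_le Qa ({b, c, d} : Finset V)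
            have := card_le_three (a := b) (b := c) (c := d)
            omega
          · intro v hv
            set S := insert x (Qa ∪ {b, c, d}) with hS
            have h0 : (within G S).Reachable x a :=
              reach_mono (insert_subset_insert _ subset_union_left) (q4 a q2)
            have haS : a ∈ S := mem_insert_of_mem (mem_union_left _ q2)
            have hbS : b ∈ S := by simp [hS]
            have hcS : c ∈ S := by simp [hS]
            have hdS : d ∈ S := by simp [hS]
            have h1 := h0.trans (reach_edge hpath.1 haS hbS)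
            have h2 := h1.trans (reach_edge hpath.2.1 hbS hcS)
            have h3 := h2.trans (reach_edge hpath.2.2.1 hcS hdS)
            rcases mem_union.1 hv with hv | hv
            · exact reach_mono (insert_subset_insert _ subset_union_left) (q4 v hv)
            · simp only [mem_insert, mem_singleton] at hv
              rcases hv with rfl | rfl | rfl
              exacts [h1, h2, h3]
      have hQU : ∀ q ∈ Q, q ∉ D ∧ ∀ w ∈ D, ¬ G.Adj q w := fun q hq =>
        (mem_filter.1 (hCU (hQC hq))).2
      refine ⟨D ∪ insert y (insert x Q), ?_, ?_, ?_, ?_, Fin.cons ![a', b', c', d'] p, ?_, ?_, ?_⟩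
      · exact union_subset hDX (insert_subset_iff.2 ⟨hyX, insert_subset_iff.2
          ⟨hCX hx, hQC.trans hCX⟩⟩)
      · have := card_union_le D (insert y (insert x Q))
        have := card_insert_le y (insert x Q)
        have := card_insert_le x Q
        omega
      · obtain ⟨z0, hz0, hreach⟩ := hDconn
        set S := D ∪ insert y (insert x Q) with hS
        have hsub : D ⊆ S := subset_union_left
        have hyS : y ∈ S := by simp [hS]
        have hxS : x ∈ S := by simp [hS]
        have h1 : (within G S).Reachable z0 y :=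
          (reach_mono hsub (hreach w hw)).trans (reach_edge hyw.symm (hsub hw) hyS)
        have h2 := h1.trans (reach_edge hxy.symm hyS hxS)
        refine ⟨z0, hsub hz0, fun v hv => ?_⟩
        rcases mem_union.1 hv with hv | hv
        · exact reach_mono hsub (hreach v hv)
        rcases mem_insert.1 hv with rfl | hv
        · exact h1
        rcases mem_insert.1 hv with rfl | hv
        · exact h2
        exact h2.trans (reach_mono (fun q hq => by
          simp only [hS, mem_union]
          exact Or.inr (mem_insert_of_mem hq)) (hQconn v hv))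
      · obtain ⟨e1, m1, e2, m2, e3, m3, e4, m4, h⟩ := hDP
        exact ⟨e1, mem_union_left _ m1, e2, mem_union_left _ m2, e3, mem_union_left _ m3, e4,
          mem_union_left _ m4, h⟩
      · refine Fin.cases hpath' fun k => hp1 k
      · refine Fin.cases (fun k => ?_) fun k e => mem_union_left _ (hp2 k e)
        simp only [Fin.cons_zero]
        fin_cases k <;> simp [ha', hb', hc', hd']
      · have hnew : ∀ k e e', (![a', b', c', d'] : Fin 4 → V) e ≠ p k e' ∧
            ¬ G.Adj ((![a', b', c', d'] : Fin 4 → V) e) (p k e') := by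
          intro k e e'
          have hmem : (![a', b', c', d'] : Fin 4 → V) e ∈ Q := by fin_cases e <;> simp [ha', hb', hc', hd']
          exact ⟨fun h => (hQU _ hmem).1 (h ▸ hp2 k e'), (hQU _ hmem).2 _ (hp2 k e')⟩
        refine Fin.cases (Fin.cases (fun h => absurd rfl h) fun l _ e e' => by
            simpa using hnew l e e') fun k => Fin.cases (fun _ e e' => ?_) fun l h e e' => ?_
        · simp only [Fin.cons_zero, Fin.cons_succ]
          exact ⟨(hnew k e' e).1.symm, fun h => (hnew k e' e).2 h.symm⟩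
        · simp only [Fin.cons_succ]
          exact hp3 k l (fun h' => h (by rw [h'])) e e'
  obtain ⟨D, -, -, -, -, p, hp1, -, hp3⟩ := key (r + 1) (Nat.succ_pos r)
  exact hr ⟨fun k => p k.castSucc, fun k => hp1 _,
    fun k l hkl => hp3 _ _ fun e => hkl (Fin.castSucc_injective _ e)⟩

open Classical in
/-- Two minors inside `X`: one of sets containing an induced `P₄`, one arbitrary. -/
lemma linear_aux {r : ℕ} (hr : ¬ HasP4Packing G r) (X : Finset V) : ∀ c, Opt G X c →
    ∃ m1 m2, c ≤ 7 * r * m1 + m2 ∧ MinorIn G (HasP4 G) X m1 ∧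
      MinorIn G (fun _ => True) X m2 := by
  induction X using Finset.strongInduction with
  | H X ih =>
    intro c hc
    by_cases hP : HasP4 G X
    swap
    · refine ⟨0, c, by omega, minor_zero _ _, cograph_minor X (fun a ha b hb c' hc' d hd h => ?_) c hc⟩
      exact hP ⟨a, ha, b, hb, c', hc', d, hd, h⟩
    by_cases hsplit : ∃ A, A ⊆ X ∧ A.Nonempty ∧ (X \ A).Nonempty ∧
        ∀ x ∈ A, ∀ y ∈ X \ A, ¬ G.Adj x y
    · obtain ⟨A, hA, hA1, hA2, hno⟩ := hsplit
      have hAss : A ⊂ X := by
        obtain ⟨y, hy⟩ := hA2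
        exact (ssubset_iff_of_subset hA).2 ⟨y, (mem_sdiff.1 hy).1, (mem_sdiff.1 hy).2⟩
      obtain ⟨a, ha⟩ := exists_opt G A
      obtain ⟨b, hb⟩ := exists_opt G (X \ A)
      have hle : c ≤ max a b := hc.2 _ ((cpart_parallel (ha.1.mono (subset_refl _) (le_max_left a b))
        (hb.1.mono (subset_refl _) (le_max_right a b)) hno).mono
          (by rw [union_sdiff_of_subset hA]) le_rfl)
      rcases le_or_gt c a with h | h
      · obtain ⟨m1, m2, h1, h2, h3⟩ := ih A hAss a ha
        exact ⟨m1, m2, h.trans h1, h2.mono hA, h3.mono hA⟩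
      · obtain ⟨m1, m2, h1, h2, h3⟩ := ih (X \ A) (sdiff_ssubset hA hA1) b hb
        exact ⟨m1, m2, by omega, h2.mono sdiff_subset, h3.mono sdiff_subset⟩
    push Not at hsplit
    obtain ⟨D, hDX, hDc, hDconn, hDP, hdom⟩ := exists_dominating hr hsplit hP
    have hDne : D.Nonempty := let ⟨a, ha, _⟩ := hDconn; ⟨a, ha⟩
    obtain ⟨c', hc'⟩ := exists_opt G (X \ D)
    have hle : c ≤ D.card + c' := hc.2 _ (((cpart_compl_singles D).union hc'.1).mono
      (by rw [union_sdiff_of_subset hDX]) le_rfl)
    obtain ⟨m1, m2, h1, ⟨B, B1, B2, B3⟩, h3⟩ := ih (X \ D) (sdiff_ssubset hDX hDne) c' hc'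
    refine ⟨m1 + 1, m2, by rw [Nat.mul_add, Nat.mul_one]; omega,
      ⟨Fin.cons D B, ?_, ?_, ?_⟩, h3.mono sdiff_subset⟩
    · exact Fin.cases ⟨hDX, hDconn, hDP⟩ fun i => ⟨(B1 i).1.trans sdiff_subset, (B1 i).2⟩
    · have hd : ∀ i, Disjoint D (B i) := fun i => disjoint_sdiff.mono_right (B1 i).1
      refine Fin.cases (Fin.cases (fun h => absurd rfl h) fun j _ => by simpa using hd j)
        fun i => Fin.cases (fun _ => by simpa using (hd i).symm) fun j h => ?_
      simp only [Fin.cons_succ]
      exact B2 i j fun e => h (by rw [e])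
    · have hj : ∀ i, ∃ x ∈ D, ∃ y ∈ B i, G.Adj x y := by
        intro i
        obtain ⟨a, ha, b, hb, c0, hc0, d, hd, hp⟩ := (B1 i).2.2
        have hsub := (B1 i).1
        obtain ⟨z, hz, hz'⟩ := hdom a (mem_sdiff.1 (hsub ha)).1 b (mem_sdiff.1 (hsub hb)).1
          c0 (mem_sdiff.1 (hsub hc0)).1 d (mem_sdiff.1 (hsub hd)).1 hp
        have hzB : z ∈ B i := by
          simp only [mem_insert, mem_singleton] at hz
          rcases hz with rfl | rfl | rfl | rfl <;> assumption
        rcases hz' with h | ⟨w, hw, hzw⟩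
        · exact absurd h (mem_sdiff.1 (hsub hzB)).2
        · exact ⟨w, hw, z, hzB, hzw.symm⟩
      refine Fin.cases (Fin.cases (fun h => absurd rfl h) fun j _ => by simpa using hj j)
        fun i => Fin.cases (fun _ => ?_) fun j h => ?_
      · obtain ⟨x, hx, y, hy, e⟩ := hj i
        exact ⟨y, by simpa using hy, x, by simpa using hx, e.symm⟩
      · simp only [Fin.cons_succ]
        exact B3 i j fun e => h (by rw [e])

open Classical in
/-- Linear Hadwiger for graphs without `r` pairwise non-adjacent induced `P₄`s. -/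
theorem result : ∀ r : ℕ, ∀ (V : Type) [Fintype V] (G : SimpleGraph V), ¬ HasP4Packing G r →
    ∀ t : ℕ, ¬ HasCliqueMinor G (t + 1) → G.Colorable ((7 * r + 1) * t) := by
  intro r V _ G hr t hno
  obtain ⟨c, hc⟩ := exists_opt G univ
  obtain ⟨m1, m2, h1, h2, h3⟩ := linear_aux hr univ c hc
  have hm1 : m1 ≤ t := by
    by_contra h
    exact hno (h2.hasCliqueMinor (by omega))
  have hm2 : m2 ≤ t := by
    by_contra h
    exact hno (h3.hasCliqueMinor (by omega))
  have hle : c ≤ (7 * r + 1) * t := by
    refine h1.trans ?_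
    rw [Nat.add_mul, Nat.one_mul]
    exact Nat.add_le_add (Nat.mul_le_mul_left _ hm1) hm2
  obtain ⟨f, f1, f2⟩ := hc.1
  refine SimpleGraph.Colorable.mono hle ⟨SimpleGraph.Coloring.mk
    (fun x => (⟨f x, f1 x (mem_univ x)⟩ : Fin c)) ?_⟩
  intro a b hab he
  have := f2 a (mem_univ a) b (mem_univ b) hab.ne (congrArg Fin.val he)
  exact ((SimpleGraph.compl_adj _ _ _).1 this).2 hab

end Vale.Agent.Results.P060.InducedP4Packing
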