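import Vale.Agent.P060.Gallai

namespace Vale.Agent.Results.P060.TwoKTwoFree

open Finset Vale.Agent.P060

/-- `G` has a `K_m` minor: `m` pairwise disjoint sets inducing connected (so nonempty) subgraphs,
any two of them joined by an edge. -/
def HasCliqueMinor {V : Type} (G : SimpleGraph V) (m : ℕ) : Prop :=
  ∃ B : Fin m → Set V, (∀ i, (G.induce (B i)).Connected) ∧
    (∀ i j, i ≠ j → Disjoint (B i) (B j)) ∧
    (∀ i j, i ≠ j → ∃ x ∈ B i, ∃ y ∈ B j, G.Adj x y)

/-- `G` has no induced pair of disjoint edges (`2K₂`). The four non-adjacencies force `a,b,c,d`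
to be distinct. -/
def TwoKTwoFreeGraph {V : Type} (G : SimpleGraph V) : Prop :=
  ¬ ∃ a b c d : V, G.Adj a b ∧ G.Adj c d ∧ ¬ G.Adj a c ∧ ¬ G.Adj a d ∧ ¬ G.Adj b c ∧ ¬ G.Adj b d

/-- A clique minor inside `X` by sets with a central vertex. -/
def MinorIn {V : Type} (G : SimpleGraph V) (X : Finset V) (c : ℕ) : Prop :=
  ∃ (ι : Type) (_ : Fintype ι) (B : ι → Finset V), c ≤ Fintype.card ι ∧ (∀ i, B i ⊆ X) ∧
    (∀ i, ∃ a ∈ B i, ∀ b ∈ B i, b ≠ a → G.Adj a b) ∧
    (∀ i j, i ≠ j → Disjoint (B i) (B j)) ∧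
    (∀ i j, i ≠ j → ∃ x ∈ B i, ∃ y ∈ B j, G.Adj x y)

lemma MinorIn.hasCliqueMinor {V : Type} {G : SimpleGraph V} {X : Finset V} {c : ℕ}
    (h : MinorIn G X c) : HasCliqueMinor G c := by
  obtain ⟨ι, _, B, hc, -, h2, h3, h4⟩ := h
  obtain ⟨e⟩ := Function.Embedding.nonempty_of_card_le (α := Fin c) (β := ι) (by simpa using hc)
  refine ⟨fun i => ↑(B (e i)), fun i => ?_, fun i j hij => ?_,
    fun i j hij => h4 _ _ fun h => hij (e.injective h)⟩
  · obtain ⟨a, ha, hab⟩ := h2 (e i)
    rw [SimpleGraph.connected_iff_exists_forall_reachable]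
    refine ⟨⟨a, ha⟩, fun ⟨b, hb⟩ => ?_⟩
    by_cases h : b = a
    · subst h; exact SimpleGraph.Reachable.refl _
    · exact SimpleGraph.Adj.reachable (hab b hb h)
  · exact disjoint_coe.2 (h3 _ _ fun h => hij (e.injective h))

variable {V : Type} [Fintype V] [DecidableEq V]

/-- Edges meeting the neighbourhood of `u`. -/
def goodEdges (G : SimpleGraph V) (u : V) : SimpleGraph V where
  Adj x y := G.Adj x y ∧ (G.Adj u x ∨ G.Adj u y)
  symm := ⟨fun _ _ h => ⟨h.1.symm, h.2.symm⟩⟩
  loopless := ⟨fun _ h => G.irrefl h.1⟩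

open Classical in
/-- The Tutte condition in a critical `2K₂`-free graph. -/
lemma tutte_condition {G : SimpleGraph V} (hfree : TwoKTwoFreeGraph G) {X : Finset V} {u : V}
    (hu : u ∈ X) {k : ℕ} (hX : 2 * k + 1 ≤ X.card)
    (hdeg : ∀ v ∈ X, k ≤ (X.filter fun w => G.Adj v w).card)
    (htwin : ∀ a ∈ X, ∀ a' ∈ X, a ≠ a' → ¬ G.Adj a a' →
      ¬ ∀ w ∈ X, G.Adj a w → G.Adj a' w)
    (S : Finset V) (hS : S ⊆ X.erase u) :
    (oddC (goodEdges G u) (X.erase u \ S)).card ≤ S.card + ((X.erase u).card - 2 * k) := by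
  set F := goodEdges G u with hF
  set W := X.erase u with hW
  set Z := W \ S with hZ
  by_contra hcon
  push Not at hcon
  have hWc : W.card + 1 = X.card := card_erase_add_one hu
  have hZc : Z.card + S.card = W.card := by
    have := card_sdiff_of_subset hS
    have := card_le_card hS
    rw [hZ]; omega
  set h := fun C : Finset V => C.card / 2 with hh
  set Ls := ∑ C ∈ comps F Z, h C with hLs
  have hL : S.card + Ls < k := by
    have h1 : ∑ C ∈ comps F Z, (2 * h C + if Odd C.card then 1 else 0) = Z.card := by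
      rw [← sum_comps F Z]
      refine sum_congr rfl fun C _ => ?_
      simp only [hh]
      split_ifs with hodd
      · rw [Nat.odd_iff] at hodd; omega
      · rw [Nat.odd_iff] at hodd; omega
    rw [sum_add_distrib, ← mul_sum, sum_boole, Nat.cast_id] at h1
    have h2 : (oddC F Z).card = ((comps F Z).filter fun C => Odd C.card).card := rfl
    rw [hLs]
    omega
  have hone : ∀ C ∈ comps F Z, C.card / 2 ≤ Ls := fun C hC =>
    single_le_sum (f := h) (fun _ _ => Nat.zero_le _) hC
  have htwo : ∀ C ∈ comps F Z, ∀ D ∈ comps F Z, C ≠ D → C.card / 2 + D.card / 2 ≤ Ls := by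
    intro C hC D hD hne
    have h1 : ∑ x ∈ ({C, D} : Finset (Finset V)), h x ≤ Ls :=
      sum_le_sum_of_subset_of_nonneg (by
        intro x hx
        simp only [mem_insert, mem_singleton] at hx
        rcases hx with rfl | rfl <;> assumption) fun _ _ _ => Nat.zero_le _
    rwa [sum_pair hne] at h1
  have hZmem : ∀ {x}, x ∈ Z → x ∈ X ∧ x ≠ u ∧ x ∉ S := fun {x} hx =>
    ⟨mem_of_mem_erase (mem_sdiff.1 hx).1, (mem_erase.1 (mem_sdiff.1 hx).1).1, (mem_sdiff.1 hx).2⟩
  have hinZ : ∀ {x}, x ∈ X → x ≠ u → x ∉ S → x ∈ Z := fun {x} h1 h2 h3 =>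
    mem_sdiff.2 ⟨mem_erase.2 ⟨h2, h1⟩, h3⟩
  -- neighbours of a vertex adjacent to `u`
  have hA : ∀ C ∈ comps F Z, ∀ a ∈ C, G.Adj u a → ∀ w ∈ Z, G.Adj a w → w ∈ C := fun C hC a ha hua
    w hw haw => comp_closed hC ha hw ⟨haw, Or.inl hua⟩
  have hdegA : ∀ C ∈ comps F Z, ∀ a ∈ C, G.Adj u a → k ≤ S.card + C.card := by
    intro C hC a ha hua
    have hsub : (X.filter fun w => G.Adj a w) ⊆ insert u (S ∪ C.erase a) := by
      intro w hw
      obtain ⟨hwX, haw⟩ := mem_filter.1 hw
      by_cases h1 : w = u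
      · exact mem_insert.2 (Or.inl h1)
      by_cases h2 : w ∈ S
      · exact mem_insert_of_mem (mem_union_left _ h2)
      exact mem_insert_of_mem (mem_union_right _ (mem_erase.2
        ⟨haw.ne.symm, hA C hC a ha hua w (hinZ hwX h1 h2) haw⟩))
    have := (hdeg a (hZmem (comp_sub hC ha)).1).trans (card_le_card hsub)
    have := card_insert_le u (S ∪ C.erase a)
    have := card_union_le S (C.erase a)
    have := card_erase_add_one ha
    omega
  -- an edge without endpoints near `u` meets the component of every neighbour of `u`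
  have hRR : ∀ x y a, G.Adj x y → ¬ G.Adj u x → ¬ G.Adj u y → G.Adj u a →
      G.Adj a x ∨ G.Adj a y := by
    intro x y a hxy hx hy hua
    by_contra hno
    push Not at hno
    exact hfree ⟨u, a, x, y, hua, hxy, hx, hy, hno.1, hno.2⟩
  have hAsub : (X.filter fun w => G.Adj u w) ⊆ W := fun w hw => by
    obtain ⟨h1, h2⟩ := mem_filter.1 hw
    exact mem_erase.2 ⟨h2.ne.symm, h1⟩
  obtain ⟨a, haZ, hua⟩ : ∃ a ∈ Z, G.Adj u a := by
    by_contra hno
    push Not at hno
    have : (X.filter fun w => G.Adj u w) ⊆ S := fun w hw =>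
      by_contra fun h => hno w (mem_sdiff.2 ⟨hAsub hw, h⟩) (mem_filter.1 hw).2
    have := (hdeg u hu).trans (card_le_card this)
    omega
  obtain ⟨C, hC, haC⟩ := exists_comp F haZ
  rcases le_or_gt k (S.card + 1) with hs | hs
  · -- all components are single vertices
    have hsing : ∀ x ∈ Z, ∀ y ∈ Z, ¬ F.Adj x y := by
      intro x hx y hy hxy
      obtain ⟨D, hD, hxD⟩ := exists_comp F hx
      have hyD := comp_closed hD hxD hy hxy
      have h1 : 1 < D.card := one_lt_card.2 ⟨x, hxD, y, hyD, hxy.1.ne⟩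
      have := hone D hD
      omega
    have hind : ∀ x ∈ Z, ∀ y ∈ Z, ¬ G.Adj x y := by
      intro x hx y hy hxy
      by_cases hux : G.Adj u x
      · exact hsing x hx y hy ⟨hxy, Or.inl hux⟩
      by_cases huy : G.Adj u y
      · exact hsing x hx y hy ⟨hxy, Or.inr huy⟩
      rcases hRR x y a hxy hux huy hua with h' | h'
      · exact hsing a haZ x hx ⟨h', Or.inl hua⟩
      · exact hsing a haZ y hy ⟨h', Or.inl hua⟩
    have hnb : ∀ z ∈ Z, (X.filter fun w => G.Adj z w) = insert u S := by
      intro z hz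
      refine eq_of_subset_of_card_le (fun w hw => ?_) ?_
      · obtain ⟨hwX, hzw⟩ := mem_filter.1 hw
        by_cases h1 : w = u
        · exact mem_insert.2 (Or.inl h1)
        exact mem_insert_of_mem (by_contra fun h2 => hind z hz w (hinZ hwX h1 h2) hzw)
      · have := hdeg z (hZmem hz).1
        have := card_insert_le u S
        omega
    obtain ⟨z, hz, z', hz', hne⟩ := one_lt_card.1 (show 1 < Z.card by omega)
    refine htwin z (hZmem hz).1 z' (hZmem hz').1 hne (hind z hz z' hz') fun w hw hzw => ?_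
    have : w ∈ X.filter fun w => G.Adj z' w := by
      rw [hnb z' hz', ← hnb z hz]
      exact mem_filter.2 ⟨hw, hzw⟩
    exact (mem_filter.1 this).2
  have hnbr : ∀ D ∈ comps F Z, ∀ b ∈ D, G.Adj u b → ∃ z ∈ Z, G.Adj b z := by
    intro D hD b hb hub
    by_contra hno
    push Not at hno
    have hsub : (X.filter fun w => G.Adj b w) ⊆ insert u S := by
      intro w hw
      obtain ⟨hwX, hbw⟩ := mem_filter.1 hw
      by_cases h1 : w = u
      · exact mem_insert.2 (Or.inl h1)
      exact mem_insert_of_mem (by_contra fun h2 => hno w (hinZ hwX h1 h2) hbw)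
    have := (hdeg b (hZmem (comp_sub hD hb)).1).trans (card_le_card hsub)
    have := card_insert_le u S
    omega
  by_cases hsecond : ∃ b ∈ Z, G.Adj u b ∧ b ∉ C
  · -- two components with neighbours of `u`
    obtain ⟨b, hbZ, hub, hbC⟩ := hsecond
    obtain ⟨D, hD, hbD⟩ := exists_comp F hbZ
    have hCD : C ≠ D := fun h => hbC (h ▸ hbD)
    have hcross : ∀ C' ∈ comps F Z, ∀ D' ∈ comps F Z, C' ≠ D' → ∀ x ∈ C', G.Adj u x → ∀ y ∈ D',
        G.Adj u y → ∀ z ∈ Z, G.Adj x z → ∀ w ∈ Z, G.Adj y w → ¬ G.Adj u z ∧ G.Adj z w := by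
      intro C' hC' D' hD' hne x hx hux y hy huy z hz hxz w hw hyw
      have hzC := hA C' hC' x hx hux z hz hxz
      have hwD := hA D' hD' y hy huy w hw hyw
      have hno : ∀ p ∈ C', ∀ q ∈ D', ¬ F.Adj p q := fun p hp q hq hpq =>
        hne (comp_unique hC' hD' (comp_closed hC' hp (comp_sub hD' hq) hpq) hq)
      have hzw : G.Adj z w := by
        by_contra h
        exact hfree ⟨x, z, y, w, hxz, hyw, fun e => hno x hx y hy ⟨e, Or.inl hux⟩,
          fun e => hno x hx w hwD ⟨e, Or.inl hux⟩, fun e => hno z hzC y hy ⟨e, Or.inr huy⟩, h⟩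
      exact ⟨fun huz => hno z hzC w hwD ⟨hzw, Or.inl huz⟩, hzw⟩
    obtain ⟨z, hzZ, haz⟩ := hnbr C hC a haC hua
    obtain ⟨w, hwZ, hbw⟩ := hnbr D hD b hbD hub
    have hzC := hA C hC a haC hua z hzZ haz
    have hwD := hA D hD b hbD hub w hwZ hbw
    obtain ⟨huz, hzw⟩ := hcross C hC D hD hCD a haC hua b hbD hub z hzZ haz w hwZ hbw
    obtain ⟨huw, -⟩ := hcross D hD C hC hCD.symm b hbD hub a haC hua w hwZ hbw z hzZ haz
    have hcover : (X.filter fun v => G.Adj u v) ⊆
        S ∪ ((C.filter fun v => G.Adj u v) ∪ D.filter fun v => G.Adj u v) := by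
      intro v hv
      obtain ⟨hvX, huv⟩ := mem_filter.1 hv
      by_cases hvS : v ∈ S
      · exact mem_union_left _ hvS
      refine mem_union_right _ ?_
      have hvZ := hinZ hvX huv.ne.symm hvS
      rcases hRR z w v hzw huz huw huv with h' | h'
      · exact mem_union_left _ (mem_filter.2
          ⟨comp_closed hC hzC hvZ ⟨h'.symm, Or.inr huv⟩, huv⟩)
      · exact mem_union_right _ (mem_filter.2
          ⟨comp_closed hD hwD hvZ ⟨h'.symm, Or.inr huv⟩, huv⟩)
    have hR : ∀ C' ∈ comps F Z, ∀ D' ∈ comps F Z, C' ≠ D' → ∀ x ∈ C', G.Adj u x → ∀ y ∈ D',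
        G.Adj u y → k ≤ S.card + 1 + (C'.filter fun v => ¬ G.Adj u v).card := by
      intro C' hC' D' hD' hne x hx hux y hy huy
      obtain ⟨w', hw', hyw'⟩ := hnbr D' hD' y hy huy
      have hsub : (X.filter fun v => G.Adj x v) ⊆
          insert u (S ∪ C'.filter fun v => ¬ G.Adj u v) := by
        intro v hv
        obtain ⟨hvX, hxv⟩ := mem_filter.1 hv
        by_cases h1 : v = u
        · exact mem_insert.2 (Or.inl h1)
        by_cases h2 : v ∈ S
        · exact mem_insert_of_mem (mem_union_left _ h2)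
        have hvZ := hinZ hvX h1 h2
        exact mem_insert_of_mem (mem_union_right _ (mem_filter.2
          ⟨hA C' hC' x hx hux v hvZ hxv,
            (hcross C' hC' D' hD' hne x hx hux y hy huy v hvZ hxv w' hw' hyw').1⟩))
      have := (hdeg x (hZmem (comp_sub hC' hx)).1).trans (card_le_card hsub)
      have := card_insert_le u (S ∪ C'.filter fun v => ¬ G.Adj u v)
      have := card_union_le S (C'.filter fun v => ¬ G.Adj u v)
      omega
    have hR1 := hR C hC D hD hCD a haC hua b hbD hub
    have hR2 := hR D hD C hC hCD.symm b hbD hub a haC hua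
    have hc1 := card_filter_add_card_filter_not (s := C) (fun v => G.Adj u v)
    have hc2 := card_filter_add_card_filter_not (s := D) (fun v => G.Adj u v)
    have hp1 : 0 < (C.filter fun v => G.Adj u v).card := card_pos.2 ⟨a, mem_filter.2 ⟨haC, hua⟩⟩
    have hp2 : 0 < (D.filter fun v => G.Adj u v).card := card_pos.2 ⟨b, mem_filter.2 ⟨hbD, hub⟩⟩
    have hcov := (hdeg u hu).trans (card_le_card hcover)
    have := card_union_le S ((C.filter fun v => G.Adj u v) ∪ D.filter fun v => G.Adj u v)
    have := card_union_le (C.filter fun v => G.Adj u v) (D.filter fun v => G.Adj u v)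
    have := htwo C hC D hD hCD
    omega
  · -- one component with neighbours of `u`
    push Not at hsecond
    have hAC : (X.filter fun v => G.Adj u v) ⊆ S ∪ C.filter fun v => G.Adj u v := by
      intro v hv
      obtain ⟨hvX, huv⟩ := mem_filter.1 hv
      by_cases hvS : v ∈ S
      · exact mem_union_left _ hvS
      exact mem_union_right _ (mem_filter.2
        ⟨hsecond v (hinZ hvX huv.ne.symm hvS) huv, huv⟩)
    have := hone C hC
    obtain ⟨x, hx⟩ : (Z \ C).Nonempty := card_pos.1 (by
      have := le_card_sdiff C Z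
      omega)
    obtain ⟨hxZ, hxC⟩ := mem_sdiff.1 hx
    have hux : ¬ G.Adj u x := fun h => hxC (hsecond x hxZ h)
    have hsub : (X.filter fun v => G.Adj x v) ⊆ S ∪ C.filter fun v => ¬ G.Adj u v := by
      intro v hv
      obtain ⟨hvX, hxv⟩ := mem_filter.1 hv
      by_cases h2 : v ∈ S
      · exact mem_union_left _ h2
      have hvu : v ≠ u := fun h => hux (h ▸ hxv.symm)
      have hvZ := hinZ hvX hvu h2
      have huv : ¬ G.Adj u v := fun huv =>
        hxC (hA C hC v (hsecond v hvZ huv) huv x hxZ hxv.symm)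
      refine mem_union_right _ (mem_filter.2 ⟨?_, huv⟩)
      rcases hRR x v a hxv hux huv hua with h' | h'
      · exact absurd (hA C hC a haC hua x hxZ h') hxC
      · exact hA C hC a haC hua v hvZ h'
    have := (hdeg x (hZmem hxZ).1).trans (card_le_card hsub)
    have := card_union_le S (C.filter fun v => ¬ G.Adj u v)
    have := (hdeg u hu).trans (card_le_card hAC)
    have := card_union_le S (C.filter fun v => G.Adj u v)
    have := card_filter_add_card_filter_not (s := C) (fun v => G.Adj u v)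
    omega

open Classical in
/-- Hadwiger's inequality inside every vertex set. -/
lemma minor_in {G : SimpleGraph V} (hfree : TwoKTwoFreeGraph G) (X : Finset V) :
    ∀ c, CPart Gᶜ X c → (∀ c', CPart Gᶜ X c' → c ≤ c') → MinorIn G X c := by
  induction X using Finset.strongInduction with
  | H X ih =>
    intro c hc hopt
    rcases Nat.eq_zero_or_pos c with rfl | hpos
    · exact ⟨Fin 0, inferInstance, Fin.elim0, Nat.zero_le _, fun i => i.elim0, fun i => i.elim0,
        fun i => i.elim0, fun i => i.elim0⟩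
    by_cases hcr : ∃ x ∈ X, ∀ c', CPart Gᶜ (X.erase x) c' → c ≤ c'
    · obtain ⟨x, hx, hx'⟩ := hcr
      obtain ⟨ι, hι, B, h1, h2, h3, h4, h5⟩ :=
        ih _ (erase_ssubset hx) c (hc.mono (erase_subset _ _) le_rfl) hx'
      exact ⟨ι, hι, B, h1, fun i => (h2 i).trans (erase_subset _ _), h3, h4, h5⟩
    push Not at hcr
    have hcrit : ∀ x ∈ X, ∃ c' < c, CPart Gᶜ (X.erase x) c' := fun x hx => by
      obtain ⟨c', h1, h2⟩ := hcr x hx
      exact ⟨c', h2, h1⟩
    have hadj : ∀ x y : V, x ≠ y → ¬ Gᶜ.Adj x y → G.Adj x y := fun x y hne h =>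
      by_contra fun h' => h ((SimpleGraph.compl_adj _ _ _).2 ⟨hne, h'⟩)
    rcases join_or_large hc hopt hcrit with hlarge | ⟨A, hAX, hA1, hA2, hA3⟩
    swap
    · -- a join
      have hex : ∀ Y ⊆ X, ∃ m, CPart Gᶜ Y m := fun Y hY => ⟨c, hc.mono hY le_rfl⟩
      have h1 := hex A hAX
      have h2 := hex (X \ A) sdiff_subset
      have hAss : A ⊂ X := by
        refine (ssubset_iff_of_subset hAX).2 ?_
        obtain ⟨y, hy⟩ := hA2
        exact ⟨y, (mem_sdiff.1 hy).1, (mem_sdiff.1 hy).2⟩
      obtain ⟨ι1, i1, B1, a1, a2, a3, a4, a5⟩ :=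
        ih A hAss _ (Nat.find_spec h1) fun c' h => Nat.find_min' h1 h
      obtain ⟨ι2, i2, B2, b1, b2, b3, b4, b5⟩ :=
        ih (X \ A) (sdiff_ssubset hAX hA1) _ (Nat.find_spec h2) fun c' h => Nat.find_min' h2 h
      have hle := hopt _ (((Nat.find_spec h1).union (Nat.find_spec h2)).mono
        (by rw [union_sdiff_of_subset hAX]) le_rfl)
      refine ⟨ι1 ⊕ ι2, inferInstance, Sum.elim B1 B2, by simp only [Fintype.card_sum]; omega,
        ?_, ?_, ?_, ?_⟩
      · rintro (i | i)
        exacts [(a2 i).trans hAX, (b2 i).trans sdiff_subset]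
      · rintro (i | i)
        exacts [a3 i, b3 i]
      · rintro (i | i) (j | j) hij
        · exact a4 i j fun h => hij (congrArg Sum.inl h)
        · exact (disjoint_sdiff).mono (a2 i) (b2 j)
        · exact (disjoint_sdiff).symm.mono (b2 i) (a2 j)
        · exact b4 i j fun h => hij (congrArg Sum.inr h)
      · have hAB : ∀ x ∈ A, ∀ y ∈ X \ A, G.Adj x y := fun x hx y hy =>
          hadj x y (fun h => (mem_sdiff.1 hy).2 (h ▸ hx)) (hA3 x hx y hy)
        rintro (i | i) (j | j) hij
        · exact a5 i j fun h => hij (congrArg Sum.inl h)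
        · obtain ⟨x, hx, -⟩ := a3 i
          obtain ⟨y, hy, -⟩ := b3 j
          exact ⟨x, hx, y, hy, hAB x (a2 i hx) y (b2 j hy)⟩
        · obtain ⟨x, hx, -⟩ := b3 i
          obtain ⟨y, hy, -⟩ := a3 j
          exact ⟨x, hx, y, hy, (hAB y (a2 j hy) x (b2 i hx)).symm⟩
        · exact b5 i j fun h => hij (congrArg Sum.inr h)
    -- the large case
    obtain ⟨k, rfl⟩ : ∃ k, c = k + 1 := ⟨c - 1, by omega⟩
    have hnot : ∀ g : V → ℕ, (∀ x ∈ X, g x < k) →
        (∀ x ∈ X, ∀ y ∈ X, x ≠ y → g x = g y → ¬ G.Adj x y) → False := by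
      intro g g1 g2
      have := hopt k ⟨g, g1, fun x hx y hy hne he =>
        (SimpleGraph.compl_adj _ _ _).2 ⟨hne, g2 x hx y hy hne he⟩⟩
      omega
    have hext : ∀ v ∈ X, ∃ g : V → ℕ, (∀ x ∈ X.erase v, g x < k) ∧
        ∀ x ∈ X.erase v, ∀ y ∈ X.erase v, x ≠ y → g x = g y → ¬ G.Adj x y := by
      intro v hv
      obtain ⟨c', hc', h⟩ := hcrit v hv
      obtain ⟨g, g1, g2⟩ := h.mono (subset_refl _) (Nat.le_of_lt_succ hc')
      exact ⟨g, g1, fun x hx y hy hne he => ((SimpleGraph.compl_adj _ _ _).1 (g2 x hx y hy hne he)).2⟩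
    have hrecolour : ∀ v ∈ X, ∀ g : V → ℕ, ∀ i, i < k → (∀ x ∈ X.erase v, g x < k) →
        (∀ x ∈ X.erase v, ∀ y ∈ X.erase v, x ≠ y → g x = g y → ¬ G.Adj x y) →
        (∀ y ∈ X.erase v, g y = i → ¬ G.Adj v y) → False := by
      intro v hv g i hi g1 g2 g3
      refine hnot (Function.update g v i) (fun x hx => ?_) (fun x hx y hy hne he => ?_)
      · by_cases h : x = v
        · subst h; rwa [Function.update_self]
        · rw [Function.update_of_ne h]; exact g1 x (mem_erase.2 ⟨h, hx⟩)
      · by_cases h1 : x = v <;> by_cases h2 : y = v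
        · exact absurd (h1.trans h2.symm) hne
        · subst h1
          rw [Function.update_self, Function.update_of_ne h2] at he
          exact g3 y (mem_erase.2 ⟨h2, hy⟩) he.symm
        · subst h2
          rw [Function.update_self, Function.update_of_ne h1] at he
          exact fun h => g3 x (mem_erase.2 ⟨h1, hx⟩) he h.symm
        · rw [Function.update_of_ne h1, Function.update_of_ne h2] at he
          exact g2 x (mem_erase.2 ⟨h1, hx⟩) y (mem_erase.2 ⟨h2, hy⟩) hne he
    have hdeg : ∀ v ∈ X, k ≤ (X.filter fun w => G.Adj v w).card := by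
      intro v hv
      by_contra hlt
      push Not at hlt
      obtain ⟨g, g1, g2⟩ := hext v hv
      obtain ⟨i, hi, hi'⟩ : ∃ i ∈ range k, i ∉ (X.filter fun w => G.Adj v w).image g := by
        by_contra hno
        push Not at hno
        have := (card_le_card hno).trans card_image_le
        rw [card_range] at this
        omega
      exact hrecolour v hv g i (mem_range.1 hi) g1 g2 fun y hy he hvy =>
        hi' (mem_image.2 ⟨y, mem_filter.2 ⟨mem_of_mem_erase hy, hvy⟩, he⟩)
    have htwin : ∀ a ∈ X, ∀ a' ∈ X, a ≠ a' → ¬ G.Adj a a' →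
        ¬ ∀ w ∈ X, G.Adj a w → G.Adj a' w := by
      intro a ha a' ha' hne hna hall
      obtain ⟨g, g1, g2⟩ := hext a ha
      have ha'e : a' ∈ X.erase a := mem_erase.2 ⟨hne.symm, ha'⟩
      refine hrecolour a ha g (g a') (g1 a' ha'e) g1 g2 fun y hy he hay => ?_
      by_cases hy' : y = a'
      · exact hna (hy' ▸ hay)
      · exact g2 a' ha'e y hy (Ne.symm hy') he.symm (hall y (mem_of_mem_erase hy) hay)
    obtain ⟨u, hu⟩ : X.Nonempty := card_pos.1 (by omega)
    have hWc : (X.erase u).card + 1 = X.card := card_erase_add_one hu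
    obtain ⟨j, hj, f, f1, f2, f3⟩ := exists_epart (goodEdges G u) (X.erase u)
      ((X.erase u).card - 2 * k) (by rw [Nat.even_iff]; omega)
      (fun S hS => tutte_condition hfree hu (by omega) hdeg htwin S hS)
    set W := X.erase u with hW
    set I := (range j).filter fun i => (W.filter fun x => f x = i).card = 2 with hI
    have hIc : k ≤ I.card := by
      have h1 : W.card = ∑ i ∈ range j, (W.filter fun x => f x = i).card :=
        card_eq_sum_card_fiberwise fun x hx => mem_range.2 (f1 x hx)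
      have h2 : ∑ i ∈ range j, (W.filter fun x => f x = i).card ≤
          ∑ i ∈ range j, (1 + if (W.filter fun x => f x = i).card = 2 then 1 else 0) := by
        refine sum_le_sum fun i _ => ?_
        have := f3 i
        split_ifs <;> omega
      rw [sum_add_distrib, sum_const, card_range, smul_eq_mul, sum_boole, Nat.cast_id, ← hI] at h2
      omega
    have hpair : ∀ i : I, ∃ x y, x ∈ W ∧ y ∈ W ∧ G.Adj x y ∧ (G.Adj u x ∨ G.Adj u y) ∧
        W.filter (fun z => f z = i.1) = {x, y} := by
      intro i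
      obtain ⟨x, y, hxy, he⟩ := card_eq_two.1 (mem_filter.1 i.2).2
      have hx : x ∈ W.filter fun z => f z = i.1 := by rw [he]; simp
      have hy : y ∈ W.filter fun z => f z = i.1 := by rw [he]; simp
      obtain ⟨h1, h2⟩ := mem_filter.1 hx
      obtain ⟨h3, h4⟩ := mem_filter.1 hy
      have h5 := f2 x h1 y h3 hxy (h2.trans h4.symm)
      exact ⟨x, y, h1, h3, h5.1, h5.2, he⟩
    choose px py hpx hpy hpe hpu hpf using hpair
    refine ⟨Option I, inferInstance, fun o => o.elim {u} (fun i => {px i, py i}), ?_, ?_, ?_, ?_, ?_⟩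
    · simp only [Fintype.card_option, Fintype.card_coe]; omega
    · rintro (_ | i) z hz <;> simp only [Option.elim_none, Option.elim_some, mem_singleton,
        mem_insert] at hz
      · exact hz ▸ hu
      · rcases hz with rfl | rfl
        exacts [mem_of_mem_erase (hpx i), mem_of_mem_erase (hpy i)]
    · rintro (_ | i)
      · exact ⟨u, by simp, fun b hb h => absurd (by simpa using hb) h⟩
      · refine ⟨px i, by simp, fun b hb h => ?_⟩
        simp only [Option.elim_some, mem_insert, mem_singleton] at hb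
        rcases hb with rfl | rfl
        · exact absurd rfl h
        · exact hpe i
    · rintro (_ | i) (_ | i') hne
      · exact absurd rfl hne
      · simp only [Option.elim_none, Option.elim_some, disjoint_singleton_left, mem_insert,
          mem_singleton, not_or]
        exact ⟨(mem_erase.1 (hpx i')).1.symm, (mem_erase.1 (hpy i')).1.symm⟩
      · simp only [Option.elim_none, Option.elim_some, disjoint_singleton_right, mem_insert,
          mem_singleton, not_or]
        exact ⟨(mem_erase.1 (hpx i)).1.symm, (mem_erase.1 (hpy i)).1.symm⟩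
      · simp only [Option.elim_some]
        rw [← hpf i, ← hpf i', disjoint_left]
        intro z hz hz'
        exact hne (congrArg some (Subtype.ext ((mem_filter.1 hz).2.symm.trans (mem_filter.1 hz').2)))
    · have hu' : ∀ i, ∃ z ∈ ({px i, py i} : Finset V), G.Adj u z := fun i =>
        (hpu i).elim (fun h => ⟨_, by simp, h⟩) fun h => ⟨_, by simp, h⟩
      rintro (_ | i) (_ | i') hne
      · exact absurd rfl hne
      · obtain ⟨z, hz, h⟩ := hu' i'
        exact ⟨u, by simp, z, by simpa using hz, h⟩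
      · obtain ⟨z, hz, h⟩ := hu' i
        exact ⟨z, by simpa using hz, u, by simp, h.symm⟩
      · by_contra hno
        push Not at hno
        exact hfree ⟨px i, py i, px i', py i', hpe i, hpe i', hno _ (by simp) _ (by simp),
          hno _ (by simp) _ (by simp), hno _ (by simp) _ (by simp), hno _ (by simp) _ (by simp)⟩

open Classical in
/-- Hadwiger's conjecture for all graphs without an induced `2K₂`. -/
theorem result : ∀ (V : Type) [Fintype V] (G : SimpleGraph V), TwoKTwoFreeGraph G →
    ∀ t : ℕ, ¬ HasCliqueMinor G (t + 1) → G.Colorable t := by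
  intro V _ G hfree t hno
  have hex : ∃ c, CPart Gᶜ (univ : Finset V) c :=
    ⟨Fintype.card V, fun x => (Fintype.equivFin V x : ℕ), fun x _ => Fin.is_lt _,
      fun x _ y _ hne he => absurd ((Fintype.equivFin V).injective (Fin.ext he)) hne⟩
  obtain ⟨f, f1, f2⟩ := Nat.find_spec hex
  have hm := minor_in hfree univ _ (Nat.find_spec hex) fun c' h => Nat.find_min' hex h
  have hle : Nat.find hex ≤ t := by
    by_contra h
    push Not at h
    obtain ⟨ι, hι, B, h1, h2, h3, h4, h5⟩ := hm
    exact hno (MinorIn.hasCliqueMinor (c := t + 1) ⟨ι, hι, B, by omega, h2, h3, h4, h5⟩)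
  refine (SimpleGraph.Colorable.mono hle ⟨SimpleGraph.Coloring.mk
    (fun x => (⟨f x, f1 x (mem_univ x)⟩ : Fin (Nat.find hex))) ?_⟩)
  intro a b hab he
  have := f2 a (mem_univ a) b (mem_univ b) hab.ne (congrArg Fin.val he)
  exact ((SimpleGraph.compl_adj _ _ _).1 this).2 hab

end Vale.Agent.Results.P060.TwoKTwoFree
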